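import Mathlib

namespace Vale.Agent.P308

open SimpleGraph

variable {V : Type*} {G : SimpleGraph V}

/-- An augmenting path for the matching `M` from `u` to `v`, with `t` matching edges,
given as a sequence of `2t+2` distinct vertices `p 0, ..., p (2t+1)`. -/
structure AugPath (G : SimpleGraph V) (M : G.Subgraph) (u v : V) (t : ℕ) (p : ℕ → V) : Prop where
  start : p 0 = u
  finish : p (2*t+1) = v
  inj : ∀ i j, i ≤ 2*t+1 → j ≤ 2*t+1 → p i = p j → i = j
  adj : ∀ i, i ≤ t → G.Adj (p (2*i)) (p (2*i+1))
  mat : ∀ i, i < t → M.Adj (p (2*i+1)) (p (2*i+2))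

/-- index map of the blossom shortcut -/
def sig (x y b : ℕ) (j : ℕ) : ℕ :=
  if j ≤ 2*x then j else if j ≤ 2*y then 2*x+1+2*y - j else j + 2*(b-y)

theorem AugPath.shortcut {M : G.Subgraph} {u v : V} {t : ℕ} {p : ℕ → V}
    (h : AugPath G M u v t p) {x y b : ℕ} (hxy : x < y) (hyb : y < b) (hb : b ≤ t)
    (h1 : G.Adj (p (2*x)) (p (2*y))) (h2 : G.Adj (p (2*x+1)) (p (2*b+1))) :
    AugPath G M u v (t - (b - y)) (fun j => p (sig x y b j)) := by
  refine ⟨?_, ?_, ?_, ?_, ?_⟩
  · simp [sig, h.start]
  · have : sig x y b (2*(t-(b-y))+1) = 2*t+1 := by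
      unfold sig
      split_ifs <;> omega
    simp only [this, h.finish]
  · intro i j hi hj hij
    have hi' : sig x y b i ≤ 2*t+1 := by unfold sig; split_ifs <;> omega
    have hj' : sig x y b j ≤ 2*t+1 := by unfold sig; split_ifs <;> omega
    have := h.inj _ _ hi' hj' hij
    unfold sig at this
    split_ifs at this <;> omega
  · intro i hi
    show G.Adj (p (sig x y b (2*i))) (p (sig x y b (2*i+1)))
    rcases lt_trichotomy i x with hix | hix | hix
    · have e1 : sig x y b (2*i) = 2*i := by unfold sig; split_ifs <;> omega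
      have e2 : sig x y b (2*i+1) = 2*i+1 := by unfold sig; split_ifs <;> omega
      rw [e1, e2]; exact h.adj i (by omega)
    · have e1 : sig x y b (2*i) = 2*x := by unfold sig; split_ifs <;> omega
      have e2 : sig x y b (2*i+1) = 2*y := by unfold sig; split_ifs <;> omega
      rw [e1, e2]; exact h1
    · rcases lt_trichotomy i y with hiy | hiy | hiy
      · have e1 : sig x y b (2*i) = 2*(x+y-i)+1 := by unfold sig; split_ifs <;> omega
        have e2 : sig x y b (2*i+1) = 2*(x+y-i) := by unfold sig; split_ifs <;> omega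
        rw [e1, e2]; exact (h.adj (x+y-i) (by omega)).symm
      · have e1 : sig x y b (2*i) = 2*x+1 := by unfold sig; split_ifs <;> omega
        have e2 : sig x y b (2*i+1) = 2*b+1 := by unfold sig; split_ifs <;> omega
        rw [e1, e2]; exact h2
      · have e1 : sig x y b (2*i) = 2*(i+(b-y)) := by unfold sig; split_ifs <;> omega
        have e2 : sig x y b (2*i+1) = 2*(i+(b-y))+1 := by unfold sig; split_ifs <;> omega
        rw [e1, e2]; exact h.adj _ (by omega)
  · intro i hi
    show M.Adj (p (sig x y b (2*i+1))) (p (sig x y b (2*i+2)))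
    rcases lt_or_ge i x with hix | hix
    · have e1 : sig x y b (2*i+1) = 2*i+1 := by unfold sig; split_ifs <;> omega
      have e2 : sig x y b (2*i+2) = 2*i+2 := by unfold sig; split_ifs <;> omega
      rw [e1, e2]; exact h.mat i (by omega)
    · rcases lt_or_ge i y with hiy | hiy
      · have e1 : sig x y b (2*i+1) = 2*(x+y-i-1)+2 := by unfold sig; split_ifs <;> omega
        have e2 : sig x y b (2*i+2) = 2*(x+y-i-1)+1 := by unfold sig; split_ifs <;> omega
        rw [e1, e2]; exact (h.mat (x+y-i-1) (by omega)).symm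
      · have e1 : sig x y b (2*i+1) = 2*(i+(b-y))+1 := by unfold sig; split_ifs <;> omega
        have e2 : sig x y b (2*i+2) = 2*(i+(b-y))+2 := by unfold sig; split_ifs <;> omega
        rw [e1, e2]; exact h.mat _ (by omega)

end Vale.Agent.P308
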