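import Vale.Agent.P308.AugPath

namespace Vale.Agent.P308

open SimpleGraph

variable {V : Type*} {G : SimpleGraph V}

/-- the matching obtained by switching `M` along the path `p` -/
def augment (M : G.Subgraph) (t : ℕ) (p : ℕ → V)
    (h : ∀ i, i ≤ t → G.Adj (p (2*i)) (p (2*i+1))) : G.Subgraph where
  verts := Set.univ
  Adj a b := (M.Adj a b ∧ (∀ j, j ≤ 2*t+1 → p j ≠ a) ∧ (∀ j, j ≤ 2*t+1 → p j ≠ b)) ∨
    ∃ i, i ≤ t ∧ ((a = p (2*i) ∧ b = p (2*i+1)) ∨ (a = p (2*i+1) ∧ b = p (2*i)))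
  adj_sub := by
    rintro a b (⟨h1, -, -⟩ | ⟨i, hi, (⟨rfl, rfl⟩ | ⟨rfl, rfl⟩)⟩)
    · exact M.adj_sub h1
    · exact h i hi
    · exact (h i hi).symm
  edge_vert := fun _ => Set.mem_univ _
  symm := ⟨by
    rintro a b (⟨h1, h2, h3⟩ | ⟨i, hi, (⟨rfl, rfl⟩ | ⟨rfl, rfl⟩)⟩)
    · exact Or.inl ⟨h1.symm, h3, h2⟩
    · exact Or.inr ⟨i, hi, Or.inr ⟨rfl, rfl⟩⟩
    · exact Or.inr ⟨i, hi, Or.inl ⟨rfl, rfl⟩⟩⟩

/-- a vertex matched (in `M`) to a vertex off the path is off the path -/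
theorem AugPath.off_of_adj {M : G.Subgraph} {u v : V} {t : ℕ} {p : ℕ → V}
    (h : AugPath G M u v t p) (hM : M.IsMatching)
    (hverts : ∀ w, w ∈ M.verts ↔ (w ≠ u ∧ w ≠ v)) {a b : V} (hab : M.Adj a b)
    (ha : ∀ j, j ≤ 2*t+1 → p j ≠ a) : ∀ j, j ≤ 2*t+1 → p j ≠ b := by
  intro j hj hjb
  subst hjb
  have hmem : p j ∈ M.verts := M.edge_vert hab.symm
  obtain ⟨hu, hv⟩ := (hverts _).1 hmem
  have hj0 : j ≠ 0 := by rintro rfl; exact hu h.start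
  have hjt : j ≠ 2*t+1 := by rintro rfl; exact hv h.finish
  rcases Nat.mod_two_eq_zero_or_one j with hpar | hpar
  · obtain ⟨i, rfl⟩ : ∃ i, j = 2*i+2 := ⟨(j-2)/2, by omega⟩
    have h1 := h.mat i (by omega)
    have := hM.eq_of_adj_right h1 hab
    exact ha (2*i+1) (by omega) this
  · obtain ⟨i, rfl⟩ : ∃ i, j = 2*i+1 := ⟨(j-1)/2, by omega⟩
    have h1 := h.mat i (by omega)
    have := hM.eq_of_adj_left h1 hab.symm
    exact ha (2*i+2) (by omega) this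

theorem AugPath.augment_isPerfectMatching {M : G.Subgraph} {u v : V} {t : ℕ} {p : ℕ → V}
    (h : AugPath G M u v t p) (hM : M.IsMatching)
    (hverts : ∀ w, w ∈ M.verts ↔ (w ≠ u ∧ w ≠ v)) :
    (augment M t p h.adj).IsPerfectMatching := by
  classical
  rw [Subgraph.isPerfectMatching_iff]
  intro a
  by_cases ha : ∃ j, j ≤ 2*t+1 ∧ p j = a
  · obtain ⟨j, hj, rfl⟩ := ha
    rcases Nat.mod_two_eq_zero_or_one j with hpar | hpar
    · obtain ⟨i, rfl⟩ : ∃ i, j = 2*i := ⟨j/2, by omega⟩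
      refine ⟨p (2*i+1), Or.inr ⟨i, by omega, Or.inl ⟨rfl, rfl⟩⟩, ?_⟩
      rintro b (⟨-, h2, -⟩ | ⟨i', hi', (⟨e1, rfl⟩ | ⟨e1, rfl⟩)⟩)
      · exact absurd rfl (h2 _ hj)
      · have := h.inj _ _ hj (by omega) e1
        have : i = i' := by omega
        rw [this]
      · have := h.inj _ _ hj (by omega) e1
        omega
    · obtain ⟨i, rfl⟩ : ∃ i, j = 2*i+1 := ⟨j/2, by omega⟩
      refine ⟨p (2*i), Or.inr ⟨i, by omega, Or.inr ⟨rfl, rfl⟩⟩, ?_⟩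
      rintro b (⟨-, h2, -⟩ | ⟨i', hi', (⟨e1, rfl⟩ | ⟨e1, rfl⟩)⟩)
      · exact absurd rfl (h2 _ hj)
      · have := h.inj _ _ hj (by omega) e1
        omega
      · have := h.inj _ _ hj (by omega) e1
        have : i = i' := by omega
        rw [this]
  · push Not at ha
    have hau : a ≠ u := by
      intro e; exact ha 0 (by omega) (by rw [h.start, e])
    have hav : a ≠ v := by
      intro e; exact ha (2*t+1) le_rfl (by rw [h.finish, e])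
    obtain ⟨b, hb, hbu⟩ := hM ((hverts a).2 ⟨hau, hav⟩)
    refine ⟨b, Or.inl ⟨hb, ha, h.off_of_adj hM hverts hb ha⟩, ?_⟩
    rintro c (⟨h1, -, -⟩ | ⟨i', hi', (⟨e1, -⟩ | ⟨e1, -⟩)⟩)
    · exact hbu c h1
    · exact absurd e1.symm (ha _ (by omega))
    · exact absurd e1.symm (ha _ (by omega))

/-- `M` can be recovered from the augmented matching and the path -/
theorem AugPath.adj_iff {M : G.Subgraph} {u v : V} {t : ℕ} {p : ℕ → V}
    (h : AugPath G M u v t p) (hM : M.IsMatching)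
    (hverts : ∀ w, w ∈ M.verts ↔ (w ≠ u ∧ w ≠ v)) (a b : V) :
    M.Adj a b ↔ ((augment M t p h.adj).Adj a b ∧ (∀ j, j ≤ 2*t+1 → p j ≠ a) ∧
        (∀ j, j ≤ 2*t+1 → p j ≠ b)) ∨
      ∃ i, i < t ∧ ((a = p (2*i+1) ∧ b = p (2*i+2)) ∨ (a = p (2*i+2) ∧ b = p (2*i+1))) := by
  classical
  constructor
  · intro hab
    by_cases ha : ∃ j, j ≤ 2*t+1 ∧ p j = a
    · right
      obtain ⟨j, hj, rfl⟩ := ha
      have hmem : p j ∈ M.verts := M.edge_vert hab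
      obtain ⟨hu, hv⟩ := (hverts _).1 hmem
      have hj0 : j ≠ 0 := by rintro rfl; exact hu h.start
      have hjt : j ≠ 2*t+1 := by rintro rfl; exact hv h.finish
      rcases Nat.mod_two_eq_zero_or_one j with hpar | hpar
      · obtain ⟨i, rfl⟩ : ∃ i, j = 2*i+2 := ⟨(j-2)/2, by omega⟩
        have h1 := h.mat i (by omega)
        exact ⟨i, by omega, Or.inr ⟨rfl, hM.eq_of_adj_left hab h1.symm⟩⟩
      · obtain ⟨i, rfl⟩ : ∃ i, j = 2*i+1 := ⟨(j-1)/2, by omega⟩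
        have h1 := h.mat i (by omega)
        exact ⟨i, by omega, Or.inl ⟨rfl, hM.eq_of_adj_left hab h1⟩⟩
    · push Not at ha
      have hb := h.off_of_adj hM hverts hab ha
      exact Or.inl ⟨Or.inl ⟨hab, ha, hb⟩, ha, hb⟩
  · rintro (⟨(⟨h1, -, -⟩ | ⟨i, hi, (⟨e1, -⟩ | ⟨e1, -⟩)⟩), h2, -⟩ | ⟨i, hi, (⟨rfl, rfl⟩ | ⟨rfl, rfl⟩)⟩)
    · exact h1
    · exact absurd e1.symm (h2 _ (by omega))
    · exact absurd e1.symm (h2 _ (by omega))
    · exact h.mat i hi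
    · exact (h.mat i hi).symm

end Vale.Agent.P308
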