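import Mathlib

namespace Vale.Agent.P308

open Finset

variable {V : Type*}

/-- dart colourings: `c y x` is the colour of the dart from `x` to `y`; colour `0` means open -/
abbrev Col (V : Type*) (k : ℕ) := V → V → Fin k

/-- a finite sequence of `2t+2` vertices, read as a function on the naturals -/
def unf (t : ℕ) (q : Fin (2*t+2) → V) (j : ℕ) : V :=
  if h : j < 2*t+2 then q ⟨j, h⟩ else q ⟨0, by omega⟩

theorem unf_restrict (t : ℕ) (p : ℕ → V) {j : ℕ} (hj : j ≤ 2*t+1) :
    unf t (fun i : Fin (2*t+2) => p i) j = p j := by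
  unfold unf
  rw [dif_pos (by omega)]

/-- `Opn m ω q`: the sequence `q 0, ..., q (2m+1)` is open for the colourings `ω 0, ..., ω m`,
the edges being peeled alternately from the two ends. -/
def Opn {k : ℕ} [NeZero k] : (m : ℕ) → (Fin (m+1) → Col V k) → (ℕ → V) → Prop
  | 0, ω, q => ω 0 (q 1) (q 0) = 0
  | (m+1), ω, q => ω 0 (q 1) (q 0) = 0 ∧ Opn m (Fin.tail ω) (fun j => q (2*m+3-j))

/-- openness only depends on the first `2m+2` terms of the sequence -/
theorem Opn_congr {k : ℕ} [NeZero k] (m : ℕ) (ω : Fin (m+1) → Col V k) {q q' : ℕ → V}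
    (h : ∀ j, j ≤ 2*m+1 → q j = q' j) (ho : Opn m ω q) : Opn m ω q' := by
  induction m generalizing q q' with
  | zero =>
    simp only [Opn] at ho ⊢
    rw [← h 0 (by omega), ← h 1 (by omega)]; exact ho
  | succ m ih =>
    simp only [Opn] at ho ⊢
    refine ⟨?_, ih (Fin.tail ω) ?_ ho.2⟩
    · rw [← h 0 (by omega), ← h 1 (by omega)]; exact ho.1
    · intro j hj
      exact h _ (by omega)

end Vale.Agent.P308
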