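import Vale.Agent.P308.Colour

namespace Vale.Agent.P308

open Finset

variable {V : Type*} [Fintype V] [DecidableEq V]

/-- number of functions avoiding the value `0` on a given set of coordinates -/
theorem card_avoid {ι : Type*} [Fintype ι] [DecidableEq ι] (k : ℕ) [NeZero k] (E : Finset ι) :
    (Set.ncard {f : ι → Fin k | ∀ i ∈ E, f i ≠ 0} : ℝ) =
      (1 - 1 / (k:ℝ))^E.card * (k:ℝ)^(Fintype.card ι) := by
  classical
  have hset : {f : ι → Fin k | ∀ i ∈ E, f i ≠ 0} =
      ↑(Fintype.piFinset
        (fun i => if i ∈ E then (Finset.univ.erase (0 : Fin k)) else Finset.univ)) := by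
    ext f
    simp only [Set.mem_ofPred_eq, Finset.mem_coe, Fintype.mem_piFinset]
    constructor
    · intro h i
      by_cases hi : i ∈ E
      · simp [hi, h i hi]
      · simp [hi]
    · intro h i hi
      have := h i
      simpa [hi] using this
  have hcard : ∀ i, (if i ∈ E then (Finset.univ.erase (0 : Fin k)) else Finset.univ).card
      = if i ∈ E then k - 1 else k := by
    intro i
    split_ifs <;> simp
  rw [hset, Set.ncard_coe_finset, Fintype.card_piFinset]
  simp only [hcard]
  rw [Finset.prod_ite]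
  simp only [Finset.prod_const]
  have h1 : (Finset.univ.filter (fun i => i ∈ E)).card = E.card := by
    congr 1
    ext i
    simp
  have h2 : (Finset.univ.filter (fun i => ¬ i ∈ E)).card = Fintype.card ι - E.card := by
    have : (Finset.univ.filter (fun i => ¬ i ∈ E)) = Eᶜ := by
      ext i
      simp
    rw [this, Finset.card_compl]
  rw [h1, h2]
  have hk : (k : ℝ) ≠ 0 := by
    exact_mod_cast NeZero.ne k
  have hk1 : 1 ≤ k := Nat.one_le_iff_ne_zero.mpr (NeZero.ne k)
  have hle : E.card ≤ Fintype.card ι := Finset.card_le_univ E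
  have hsplit : (k:ℝ)^(Fintype.card ι) = (k:ℝ)^E.card * (k:ℝ)^(Fintype.card ι - E.card) := by
    rw [← pow_add]
    congr 1
    omega
  rw [hsplit, ← mul_assoc, ← mul_pow]
  push_cast [Nat.cast_sub hk1]
  congr 2
  field_simp

/-- auxiliary: functions whose value at one coordinate lies in a prescribed set -/
theorem ncard_eval_mem {ι β : Type*} [Fintype ι] [DecidableEq ι] [Fintype β] (i0 : ι)
    (S : Set β) :
    Set.ncard {f : ι → β | f i0 ∈ S} * Fintype.card β =
      S.ncard * (Fintype.card β)^(Fintype.card ι) := by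
  classical
  have hset : {f : ι → β | f i0 ∈ S} =
      ↑(Fintype.piFinset (fun i => if i = i0 then S.toFinset else Finset.univ)) := by
    ext f
    simp only [Set.mem_ofPred_eq, Finset.mem_coe, Fintype.mem_piFinset]
    constructor
    · intro h i
      by_cases hi : i = i0
      · subst hi
        simpa using h
      · simp [hi]
    · intro h
      have := h i0
      simpa using this
  rw [hset, Set.ncard_coe_finset, Fintype.card_piFinset,
    ← Finset.mul_prod_erase Finset.univ _ (Finset.mem_univ i0)]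
  have hrest : ∏ x ∈ Finset.univ.erase i0,
      (if x = i0 then S.toFinset else (Finset.univ : Finset β)).card
      = (Fintype.card β)^(Fintype.card ι - 1) := by
    rw [Finset.prod_congr rfl (g := fun _ => Fintype.card β)]
    · rw [Finset.prod_const, Finset.card_erase_of_mem (Finset.mem_univ i0), Finset.card_univ]
    · intro x hx
      rw [if_neg (Finset.ne_of_mem_erase hx), Finset.card_univ]
  rw [hrest, if_pos rfl, Set.ncard_eq_toFinset_card' S, mul_assoc, ← pow_succ]
  have hpos : 0 < Fintype.card ι := Fintype.card_pos_iff.mpr ⟨i0⟩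
  congr 2
  omega

/-- a fixed dart is open in exactly a fraction `1/k` of the colourings -/
theorem card_dart_open (k : ℕ) [NeZero k] (a b : V) :
    Set.ncard {c : Col V k | c a b = 0} * k = Fintype.card (Col V k) := by
  classical
  have h1 := ncard_eval_mem (ι := V) (β := V → Fin k) a {f : V → Fin k | f b ∈ ({0} : Set (Fin k))}
  have h2 := ncard_eval_mem (ι := V) (β := Fin k) b ({0} : Set (Fin k))
  simp only [Set.mem_singleton_iff, Set.mem_ofPred_eq, Set.ncard_singleton, one_mul,
    Fintype.card_fin] at h1 h2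
  have hF : Fintype.card (V → Fin k) = k ^ Fintype.card V := by
    simp
  have hC : Fintype.card (Col V k) = (Fintype.card (V → Fin k)) ^ Fintype.card V := by
    simp
  have hFpos : 0 < Fintype.card (V → Fin k) := by
    rw [hF]
    exact pow_pos (Nat.pos_of_ne_zero (NeZero.ne k)) _
  rw [hC]
  apply Nat.eq_of_mul_eq_mul_right hFpos
  calc Set.ncard {c : Col V k | c a b = 0} * k * Fintype.card (V → Fin k)
      = (Set.ncard {c : Col V k | c a b = 0} * Fintype.card (V → Fin k)) * k := by ring
    _ = (Set.ncard {f : V → Fin k | f b = 0} * (Fintype.card (V → Fin k)) ^ Fintype.card V) * k := by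
        rw [h1]
    _ = (Set.ncard {f : V → Fin k | f b = 0} * k) * (Fintype.card (V → Fin k)) ^ Fintype.card V := by
        ring
    _ = (Fintype.card (V → Fin k)) ^ Fintype.card V * Fintype.card (V → Fin k) := by
        rw [h2, hF]; ring

/-- Join lemma: if there are at least `2k` darts from `A` to `B`, then at most a quarter of the
colourings leave all of them closed. -/
theorem join_bound (G : SimpleGraph V) [DecidableRel G.Adj] (k : ℕ) [NeZero k] (A B : Finset V)
    (h : 2 * k ≤ (G.interedges A B).card) :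
    (Set.ncard {c : Col V k | ¬ ∃ x ∈ A, ∃ y ∈ B, G.Adj x y ∧ c y x = 0} : ℝ) * 4 ≤
      (Fintype.card (Col V k) : ℝ) := by
  classical
  set Φ : (V × V → Fin k) → Col V k := fun f y x => f (x, y) with hΦ
  have hinj : Function.Injective Φ := by
    intro f g hfg
    funext ⟨x, y⟩
    exact congrFun (congrFun hfg y) x
  have hset : {c : Col V k | ¬ ∃ x ∈ A, ∃ y ∈ B, G.Adj x y ∧ c y x = 0} =
      Φ '' {f : V × V → Fin k | ∀ i ∈ G.interedges A B, f i ≠ 0} := by
    ext c
    simp only [Set.mem_ofPred_eq, Set.mem_image]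
    constructor
    · intro hc
      refine ⟨fun p => c p.2 p.1, ?_, rfl⟩
      rintro ⟨x, y⟩ hxy h0
      rw [SimpleGraph.mem_interedges_iff] at hxy
      exact hc ⟨x, hxy.1, y, hxy.2.1, hxy.2.2, h0⟩
    · rintro ⟨f, hf, rfl⟩ ⟨x, hx, y, hy, hadj, h0⟩
      refine hf (x, y) ?_ h0
      rw [SimpleGraph.mem_interedges_iff]
      exact ⟨hx, hy, hadj⟩
  rw [hset, Set.ncard_image_of_injective _ hinj, card_avoid]
  have hC : (Fintype.card (Col V k) : ℝ) = (k:ℝ)^(Fintype.card (V × V)) := by
    simp [pow_mul]
  rw [hC]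
  have hk1 : 1 ≤ k := Nat.one_le_iff_ne_zero.mpr (NeZero.ne k)
  have hkpos : (0:ℝ) < k := by exact_mod_cast hk1
  have hx0 : 0 ≤ 1 - 1 / (k:ℝ) := by
    have : 1 / (k:ℝ) ≤ 1 := by
      rw [div_le_one hkpos]
      exact_mod_cast hk1
    linarith
  have hx1 : 1 - 1 / (k:ℝ) ≤ 1 := by
    have : 0 ≤ 1 / (k:ℝ) := by positivity
    linarith
  have hexp : 1 - 1 / (k:ℝ) ≤ Real.exp (-(1 / (k:ℝ))) := by
    have := Real.add_one_le_exp (-(1 / (k:ℝ)))
    linarith
  have hpow : (1 - 1 / (k:ℝ))^(G.interedges A B).card ≤ 1 / 4 := by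
    calc (1 - 1 / (k:ℝ))^(G.interedges A B).card
        ≤ (1 - 1 / (k:ℝ))^(2 * k) := pow_le_pow_of_le_one hx0 hx1 h
      _ ≤ (Real.exp (-(1 / (k:ℝ))))^(2 * k) := pow_le_pow_left₀ hx0 hexp _
      _ = Real.exp (-2) := by
          rw [← Real.exp_nat_mul]
          congr 1
          push_cast
          field_simp
      _ ≤ 1 / 4 := by
          have h1 : (2:ℝ) ≤ Real.exp 1 := by
            have := Real.add_one_le_exp (1:ℝ)
            linarith
          have h2 : Real.exp 2 = Real.exp 1 * Real.exp 1 := by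
            rw [← Real.exp_add]; norm_num
          have h4 : (4:ℝ) ≤ Real.exp 2 := by
            rw [h2]; nlinarith
          rw [Real.exp_neg, one_div]
          exact inv_anti₀ (by norm_num) h4
  have hpk : (0:ℝ) ≤ (k:ℝ)^(Fintype.card (V × V)) := by positivity
  nlinarith

/-- a fixed sequence is open for exactly a fraction `k^-(m+1)` of the colouring vectors -/
theorem card_opn (k : ℕ) [NeZero k] (m : ℕ) (q : ℕ → V) :
    Set.ncard {ω : Fin (m+1) → Col V k | Opn m ω q} * k^(m+1) =
      (Fintype.card (Col V k))^(m+1) := by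
  classical
  induction m generalizing q with
  | zero =>
    have h1 := ncard_eval_mem (ι := Fin 1) (β := Col V k) 0 {c : Col V k | c (q 1) (q 0) = 0}
    have h2 := card_dart_open k (q 1) (q 0)
    simp only [Set.mem_ofPred_eq, Fintype.card_fin, pow_one] at h1
    have hCpos : 0 < Fintype.card (Col V k) := by
      rw [← h2]
      rcases Nat.eq_zero_or_pos (Set.ncard {c : Col V k | c (q 1) (q 0) = 0} * k) with h0 | h0
      · exfalso
        have : Fintype.card (Col V k) = 0 := by rw [← h2, h0]
        have hne : Nonempty (Col V k) := ⟨fun _ _ => 0⟩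
        exact (Fintype.card_pos_iff.mpr hne).ne' this
      · exact h0
    have h3 := Nat.eq_of_mul_eq_mul_right hCpos h1
    simp only [Opn, zero_add, pow_one]
    rw [h3, h2]
  | succ m ih =>
    set S1 : Set (Col V k) := {c | c (q 1) (q 0) = 0} with hS1
    set S2 : Set (Fin (m+1) → Col V k) := {ω | Opn m ω (fun j => q (2*m+3-j))} with hS2
    set Ψ : Col V k × (Fin (m+1) → Col V k) → (Fin (m+1+1) → Col V k) :=
      fun p => Fin.cons p.1 p.2 with hΨ
    have hinj : Function.Injective Ψ := by
      rintro ⟨c, ω⟩ ⟨c', ω'⟩ hcc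
      have := Fin.cons_injective2 hcc
      exact Prod.ext this.1 this.2
    have hset : {ω : Fin (m+1+1) → Col V k | Opn (m+1) ω q} = Ψ '' (S1 ×ˢ S2) := by
      ext ω
      simp only [Set.mem_ofPred_eq, Set.mem_image, Set.mem_prod, Opn]
      constructor
      · rintro ⟨h1, h2⟩
        exact ⟨(ω 0, Fin.tail ω), ⟨h1, h2⟩, Fin.cons_self_tail ω⟩
      · rintro ⟨⟨c, ω'⟩, ⟨h1, h2⟩, rfl⟩
        refine ⟨?_, ?_⟩
        · have h1' : c (q 1) (q 0) = 0 := h1
          simpa [hΨ] using h1'
        · have h2' : Opn m ω' (fun j => q (2*m+3-j)) := h2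
          simpa [hΨ, Fin.tail_cons] using h2'
    rw [hset, Set.ncard_image_of_injective _ hinj, Set.ncard_prod]
    have h1 := card_dart_open k (q 1) (q 0)
    have h2 := ih (fun j => q (2*m+3-j))
    calc S1.ncard * S2.ncard * k^(m+1+1)
        = (S1.ncard * k) * (S2.ncard * k^(m+1)) := by ring
      _ = (Fintype.card (Col V k))^(m+1+1) := by
          rw [h1, h2]; ring

/-- First moment bound. -/
theorem first_moment (k : ℕ) [NeZero k] (m : ℕ) (P : (ℕ → V) → Prop) :
    Set.ncard {ω : Fin (m+1) → Col V k |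
        ∃ q : Fin (2*m+2) → V, P (unf m q) ∧ Opn m ω (unf m q)} * k^(m+1) ≤
      Set.ncard {q : Fin (2*m+2) → V | P (unf m q)} * (Fintype.card (Col V k))^(m+1) := by
  classical
  set Q : Finset (Fin (2*m+2) → V) := Finset.univ.filter (fun q => P (unf m q)) with hQ
  have hQs : {q : Fin (2*m+2) → V | P (unf m q)} = ↑Q := by
    ext q
    simp [hQ]
  have hset : {ω : Fin (m+1) → Col V k |
        ∃ q : Fin (2*m+2) → V, P (unf m q) ∧ Opn m ω (unf m q)} =
      ↑(Q.biUnion (fun q => Finset.univ.filter (fun ω : Fin (m+1) → Col V k =>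
        Opn m ω (unf m q)))) := by
    ext ω
    simp [hQ]
  have hone : ∀ q : Fin (2*m+2) → V,
      (Finset.univ.filter (fun ω : Fin (m+1) → Col V k => Opn m ω (unf m q))).card * k^(m+1)
        = (Fintype.card (Col V k))^(m+1) := by
    intro q
    rw [← card_opn k m (unf m q), ← Set.ncard_coe_finset]
    congr 2
    ext ω
    simp
  rw [hset, hQs, Set.ncard_coe_finset, Set.ncard_coe_finset]
  calc (Q.biUnion (fun q => Finset.univ.filter (fun ω : Fin (m+1) → Col V k =>
        Opn m ω (unf m q)))).card * k^(m+1)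
      ≤ (∑ q ∈ Q, (Finset.univ.filter (fun ω : Fin (m+1) → Col V k =>
        Opn m ω (unf m q))).card) * k^(m+1) :=
        Nat.mul_le_mul_right _ Finset.card_biUnion_le
    _ = ∑ q ∈ Q, (Fintype.card (Col V k))^(m+1) := by
        rw [Finset.sum_mul]
        exact Finset.sum_congr rfl (fun q _ => hone q)
    _ = Q.card * (Fintype.card (Col V k))^(m+1) := by
        rw [Finset.sum_const, smul_eq_mul]

end Vale.Agent.P308
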