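import Vale.Agent.P308.Augment

namespace Vale.Agent.P308

open SimpleGraph

variable {V : Type*} {G : SimpleGraph V}

/-- the recovery predicate -/
def Rec (A : G.Subgraph) (t : ℕ) (p : ℕ → V) (a b : V) : Prop :=
  (A.Adj a b ∧ (∀ j, j ≤ 2*t+1 → p j ≠ a) ∧ (∀ j, j ≤ 2*t+1 → p j ≠ b)) ∨
      ∃ i, i < t ∧ ((a = p (2*i+1) ∧ b = p (2*i+2)) ∨ (a = p (2*i+2) ∧ b = p (2*i+1)))

theorem Rec_imp {A : G.Subgraph} {t : ℕ} {p q : ℕ → V} (hpq : ∀ j, j ≤ 2*t+1 → p j = q j)
    {a b : V} (h : Rec A t p a b) : Rec A t q a b := by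
  rcases h with ⟨h1, h2, h3⟩ | ⟨i, hi, h4⟩
  · refine Or.inl ⟨h1, ?_, ?_⟩
    · intro j hj; rw [← hpq j hj]; exact h2 j hj
    · intro j hj; rw [← hpq j hj]; exact h3 j hj
  · refine Or.inr ⟨i, hi, ?_⟩
    rw [← hpq (2*i+1) (by omega), ← hpq (2*i+2) (by omega)]
    exact h4

/-- If every near-perfect matching has an augmenting path with fewer than `T` matching edges,
then the number of near-perfect matchings is at most `T * |V|^(2T)` times the number of
perfect matchings. -/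
theorem ratio_bound [Fintype V] (T : ℕ)
    (hshort : ∀ M : G.Subgraph, M.IsMatching → ∀ u v, u ≠ v →
      (∀ w, w ∈ M.verts ↔ (w ≠ u ∧ w ≠ v)) → ∃ t p, t < T ∧ AugPath G M u v t p) :
    Set.ncard {M : G.Subgraph | M.IsMatching ∧ (M.verts)ᶜ.ncard = 2} ≤
      T * (Fintype.card V)^(2*T) * Set.ncard {M : G.Subgraph | M.IsPerfectMatching} := by
  classical
  have hdata : ∀ M : {M : G.Subgraph | M.IsMatching ∧ (M.verts)ᶜ.ncard = 2},
      ∃ (u v : V) (t : ℕ) (p : ℕ → V), (∀ w, w ∈ M.1.verts ↔ (w ≠ u ∧ w ≠ v)) ∧ t < T ∧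
        AugPath G M.1 u v t p := by
    rintro ⟨M, hM, hc⟩
    obtain ⟨u, v, huv, he⟩ := Set.ncard_eq_two.1 hc
    have hv : ∀ w, w ∈ M.verts ↔ (w ≠ u ∧ w ≠ v) := by
      intro w
      have : w ∈ (M.verts)ᶜ ↔ w ∈ ({u, v} : Set V) := by rw [he]
      simp only [Set.mem_compl_iff, Set.mem_insert_iff, Set.mem_singleton_iff] at this
      tauto
    obtain ⟨t, p, ht, hp⟩ := hshort M hM u v huv hv
    exact ⟨u, v, t, p, hv, ht, hp⟩
  choose u v t p hv ht hp using hdata
  let Φ : {M : G.Subgraph | M.IsMatching ∧ (M.verts)ᶜ.ncard = 2} →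
      (Fin T × (Fin (2*T) → V)) × {M : G.Subgraph | M.IsPerfectMatching} :=
    fun M => ((⟨t M, ht M⟩, fun j => p M j),
      ⟨augment M.1 (t M) (p M) (hp M).adj, (hp M).augment_isPerfectMatching M.2.1 (hv M)⟩)
  have hinj : Function.Injective Φ := by
    intro M1 M2 h
    simp only [Φ, Prod.mk.injEq, Fin.mk.injEq, Subtype.mk.injEq] at h
    obtain ⟨⟨h1, h2⟩, h3⟩ := h
    have hpq : ∀ j, j ≤ 2*(t M1)+1 → p M1 j = p M2 j := by
      intro j hj
      have hjT : j < 2*T := by have := ht M1; omega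
      exact congrFun h2 ⟨j, hjT⟩
    have hpq' : ∀ j, j ≤ 2*(t M2)+1 → p M2 j = p M1 j := by
      intro j hj
      rw [← h1] at hj
      exact (hpq j hj).symm
    apply Subtype.ext
    apply Subgraph.ext
    · ext w
      rw [hv M1, hv M2, ← (hp M1).start, ← (hp M2).start, ← (hp M1).finish, ← (hp M2).finish,
        hpq 0 (by omega), hpq _ le_rfl, h1]
    · ext a b
      rw [(hp M1).adj_iff M1.2.1 (hv M1), (hp M2).adj_iff M2.2.1 (hv M2)]
      change Rec _ _ _ a b ↔ Rec _ _ _ a b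
      rw [h3]
      generalize augment M2.1 (t M2) (p M2) (hp M2).adj = A
      constructor
      · intro h
        have := Rec_imp hpq h
        rw [h1] at this
        exact this
      · intro h
        have := Rec_imp hpq' h
        rw [← h1] at this
        exact this
  have hcard := Nat.card_le_card_of_injective Φ hinj
  rw [Nat.card_prod, Nat.card_prod, Nat.card_fun] at hcard
  simp only [Nat.card_eq_fintype_card, Fintype.card_fin] at hcard
  rw [← Nat.card_coe_set_eq, ← Nat.card_coe_set_eq]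
  simpa [Nat.card_eq_fintype_card] using hcard

end Vale.Agent.P308
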