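import Vale.Agent.P308.Explore
import Vale.Agent.P308.PathCount

namespace Vale.Agent.P308

open Finset

variable {V : Type*}

open Classical in
/-- the partner of a vertex in a matching (the vertex itself if it is uncovered) -/
noncomputable def mate {G : SimpleGraph V} (M : G.Subgraph) (y : V) : V :=
  if h : ∃ x, M.Adj y x then h.choose else y

theorem mate_adj {G : SimpleGraph V} {M : G.Subgraph} {y : V} (h : ∃ x, M.Adj y x) :
    M.Adj y (mate M y) := by
  unfold mate
  rw [dif_pos h]
  exact h.choose_spec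

theorem mate_eq {G : SimpleGraph V} {M : G.Subgraph} (hM : M.IsMatching) {y x : V}
    (h : M.Adj y x) : mate M y = x :=
  hM.eq_of_adj_left (mate_adj ⟨x, h⟩) h

theorem mate_involutive {G : SimpleGraph V} {M : G.Subgraph} (hM : M.IsMatching) :
    Function.Involutive (mate M) := by
  intro y
  by_cases h : ∃ x, M.Adj y x
  · exact mate_eq hM (mate_adj h).symm
  · have : mate M y = y := by
      unfold mate
      rw [dif_neg h]
    rw [this, this]

variable [Fintype V] [DecidableEq V]

/-- every near-perfect matching of a combinatorial expander has many augmenting paths -/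
theorem many_augPaths (G : SimpleGraph V) [DecidableRel G.Adj] (k δ T : ℕ) (hk : 0 < k)
    (hδ : 128 * k ≤ δ) (hmin : ∀ x, δ ≤ G.degree x)
    (hgrow : ∀ L Z : Finset V, 2 * L.card ≤ 2^T → Z.card ≤ 28 * L.card →
      4 * (G.interedges L Z).card ≤ 3 * δ * L.card)
    (hjoin : ∀ A B : Finset V, 2^T ≤ 2 * A.card → 2^T ≤ B.card →
      2 * k ≤ (G.interedges A B).card)
    (M : G.Subgraph) (hM : M.IsMatching) (u v : V) (huv : u ≠ v)
    (hverts : ∀ w, w ∈ M.verts ↔ (w ≠ u ∧ w ≠ v)) :
    k^(T+1) ≤ 2 * Set.ncard {q : Fin (2*T+2) → V | AugPath G M u v T (unf T q)} := by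
  have : NeZero k := ⟨by omega⟩
  have hμ := mate_involutive hM
  have hcov : ∀ y, y ∉ ({u, v} : Finset V) → ∃ x, M.Adj y x := by
    intro y hy
    simp only [mem_insert, mem_singleton, not_or] at hy
    obtain ⟨x, hx, -⟩ := hM ((hverts y).2 hy)
    exact ⟨x, hx⟩
  have hv : Valid (mate M) {u} {v} {u, v} := by
    refine ⟨by simp, by simp, by simpa using huv, ?_⟩
    intro y hy
    have hadj := mate_adj (hcov y hy)
    refine ⟨?_, (M.adj_sub hadj).ne'⟩
    have := (hverts _).1 (M.edge_vert hadj.symm)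
    simp only [mem_insert, mem_singleton, not_or]
    exact this
  have hex := explore G (mate M) hμ k δ T hδ hmin hgrow hjoin T {u} {v} {u, v} hv (by simp)
    (by simp) (by simp) (by
      rw [Finset.card_singleton]
      exact (Finset.card_le_two).trans (by norm_num)) (by simp)
  simp only [Finset.card_singleton] at hex
  set K : ℕ := Fintype.card (Col V k) with hK
  have hKpos : 0 < K := Fintype.card_pos
  set Fail : Set (Fin (T+1) → Col V k) :=
    {ω | ¬ ∃ q, Conn G (mate M) {u} {v} {u, v} T q ∧ Opn T ω q} with hFail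
  set Succ : Set (Fin (T+1) → Col V k) :=
    {ω | ∃ q : Fin (2*T+2) → V, AugPath G M u v T (unf T q) ∧ Opn T ω (unf T q)} with hSucc
  have hfm := first_moment k T (AugPath G M u v T)
  have hcompl : Failᶜ ⊆ Succ := by
    intro ω hω
    simp only [hFail, Set.mem_compl_iff, Set.mem_ofPred_eq, not_not] at hω
    obtain ⟨q, hq, ho⟩ := hω
    refine ⟨fun i => q i, ⟨?_, ?_, ?_, ?_, ?_⟩, ?_⟩
    · rw [unf_restrict T q (by omega)]
      simpa using hq.start
    · rw [unf_restrict T q (by omega)]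
      simpa using hq.finish
    · intro i j hi hj hij
      rw [unf_restrict T q hi, unf_restrict T q hj] at hij
      exact hq.inj i j hi hj hij
    · intro i hi
      rw [unf_restrict T q (by omega), unf_restrict T q (by omega)]
      exact hq.adj i hi
    · intro i hi
      rw [unf_restrict T q (by omega), unf_restrict T q (by omega), ← hq.mat i hi]
      exact mate_adj (hcov _ (hq.avoid _ (by omega) (by omega)))
    · refine Opn_congr T ω ?_ ho
      intro j hj
      rw [unf_restrict T q hj]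
  have htot : Fail.ncard + Failᶜ.ncard = K^(T+1) := by
    rw [Set.ncard_add_ncard_compl, Nat.card_eq_fintype_card, Fintype.card_fun, Fintype.card_fin]
  have hle : Failᶜ.ncard ≤ Succ.ncard := Set.ncard_le_ncard hcompl
  have hhalf : (K:ℝ)^(T+1) ≤ 2 * (Succ.ncard : ℝ) := by
    have h1 : (Fail.ncard : ℝ) + (Failᶜ.ncard : ℝ) = (K:ℝ)^(T+1) := by exact_mod_cast htot
    have h2 : (Failᶜ.ncard : ℝ) ≤ (Succ.ncard : ℝ) := by exact_mod_cast hle
    have h3 : (0:ℝ) ≤ (K:ℝ)^(T+1) := by positivity
    norm_num at hex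
    nlinarith
  have hhalf' : K^(T+1) ≤ 2 * Succ.ncard := by exact_mod_cast hhalf
  have hKT : 0 < K^(T+1) := by positivity
  have : K^(T+1) * k^(T+1) ≤
      K^(T+1) * (2 * Set.ncard {q : Fin (2*T+2) → V | AugPath G M u v T (unf T q)}) := by
    calc K^(T+1) * k^(T+1) ≤ (2 * Succ.ncard) * k^(T+1) := Nat.mul_le_mul_right _ hhalf'
      _ = 2 * (Succ.ncard * k^(T+1)) := by ring
      _ ≤ 2 * (Set.ncard {q : Fin (2*T+2) → V | AugPath G M u v T (unf T q)} * K^(T+1)) :=
          Nat.mul_le_mul_left _ hfm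
      _ = _ := by ring
  exact Nat.le_of_mul_le_mul_left this hKT

/-- Combinatorial expander theorem. -/
theorem expander_ratio (G : SimpleGraph V) [DecidableRel G.Adj] (k δ Δ T : ℕ) (hk : 0 < k)
    (hδ : 128 * k ≤ δ) (hmin : ∀ x, δ ≤ G.degree x) (hmax : ∀ x, G.degree x ≤ Δ)
    (hgrow : ∀ L Z : Finset V, 2 * L.card ≤ 2^T → Z.card ≤ 28 * L.card →
      4 * (G.interedges L Z).card ≤ 3 * δ * L.card)
    (hjoin : ∀ A B : Finset V, 2^T ≤ 2 * A.card → 2^T ≤ B.card →
      2 * k ≤ (G.interedges A B).card) :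
    Set.ncard {M : G.Subgraph | M.IsMatching ∧ (M.verts)ᶜ.ncard = 2} * k^(T+1) ≤
      2 * (Fintype.card V * Δ^T * Set.ncard {M : G.Subgraph | M.IsPerfectMatching}) := by
  have h := ratio_bound_many (G := G) T ((k^(T+1)+1)/2) Δ hmax (by
    intro M hM u v huv hverts
    have := many_augPaths G k δ T hk hδ hmin hgrow hjoin M hM u v huv hverts
    omega)
  have h2 : k^(T+1) ≤ 2 * ((k^(T+1)+1)/2) := by omega
  calc Set.ncard {M : G.Subgraph | M.IsMatching ∧ (M.verts)ᶜ.ncard = 2} * k^(T+1)
      ≤ Set.ncard {M : G.Subgraph | M.IsMatching ∧ (M.verts)ᶜ.ncard = 2} *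
        (2 * ((k^(T+1)+1)/2)) := Nat.mul_le_mul_left _ h2
    _ = 2 * (Set.ncard {M : G.Subgraph | M.IsMatching ∧ (M.verts)ᶜ.ncard = 2} *
        ((k^(T+1)+1)/2)) := by ring
    _ ≤ _ := Nat.mul_le_mul_left _ h

end Vale.Agent.P308
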