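import Vale.Agent.P308.Growth

namespace Vale.Agent.P308

open Finset

variable {V : Type*} [Fintype V] [DecidableEq V]

/-- an alternating connector from `A` to `B` with `m` matching edges (given by the involution
`μ`), whose inner vertices avoid `W` -/
structure Conn (G : SimpleGraph V) (μ : V → V) (A B W : Finset V) (m : ℕ) (q : ℕ → V) : Prop where
  start : q 0 ∈ A
  finish : q (2*m+1) ∈ B
  inj : ∀ i j, i ≤ 2*m+1 → j ≤ 2*m+1 → q i = q j → i = j
  adj : ∀ i, i ≤ m → G.Adj (q (2*i)) (q (2*i+1))
  mat : ∀ i, i < m → μ (q (2*i+1)) = q (2*i+2)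
  avoid : ∀ j, 0 < j → j < 2*m+1 → q j ∉ W

/-- valid exploration states -/
structure Valid (μ : V → V) (A B W : Finset V) : Prop where
  subA : A ⊆ W
  subB : B ⊆ W
  disj : Disjoint A B
  closed : ∀ y, y ∉ W → μ y ∉ W ∧ μ y ≠ y

theorem Valid.next {μ : V → V} {A B W Y : Finset V} (hμ : Function.Involutive μ)
    (hv : Valid μ A B W) (hY : ∀ y ∈ Y, y ∉ W) :
    Valid μ B (Y.image μ) (W ∪ Y ∪ Y.image μ) := by
  refine ⟨?_, ?_, ?_, ?_⟩
  · intro z hz
    simp only [mem_union]
    exact Or.inl (Or.inl (hv.subB hz))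
  · intro z hz
    simp only [mem_union]
    exact Or.inr hz
  · rw [Finset.disjoint_left]
    intro z hz hz'
    obtain ⟨y, hy, rfl⟩ := Finset.mem_image.1 hz'
    exact (hv.closed y (hY y hy)).1 (hv.subB hz)
  · intro z hz
    simp only [mem_union, not_or] at hz
    obtain ⟨⟨hzW, hzY⟩, hzI⟩ := hz
    refine ⟨?_, (hv.closed z hzW).2⟩
    simp only [mem_union, not_or]
    refine ⟨⟨(hv.closed z hzW).1, ?_⟩, ?_⟩
    · intro h
      exact hzI (Finset.mem_image.2 ⟨μ z, h, hμ z⟩)
    · intro h
      obtain ⟨y, hy, hyz⟩ := Finset.mem_image.1 h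
      have : y = z := hμ.injective hyz
      exact hzY (this ▸ hy)

theorem Conn.extend {G : SimpleGraph V} {μ : V → V} {A B W Y : Finset V} {m : ℕ} {q' : ℕ → V}
    (hμ : Function.Involutive μ) (hv : Valid μ A B W) (hY : ∀ y ∈ Y, y ∉ W) {x y : V}
    (hx : x ∈ A) (hy : y ∈ Y) (hxy : G.Adj x y)
    (hq : Conn G μ B (Y.image μ) (W ∪ Y ∪ Y.image μ) m q') (hend : q' (2*m+1) = μ y) :
    Conn G μ A B W (m+1) (fun j => if j = 0 then x else if j = 1 then y else q' (2*m+3-j)) := by
  have hyW : y ∉ W := hY y hy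
  have hxW : x ∈ W := hv.subA hx
  have hin : ∀ l, 0 < l → l ≤ 2*m+1 → q' l ∉ W := by
    intro l h0 hl
    rcases Nat.lt_or_ge l (2*m+1) with h | h
    · have := hq.avoid l h0 h
      simp only [mem_union, not_or] at this
      exact this.1.1
    · have : l = 2*m+1 := by omega
      rw [this, hend]
      exact (hv.closed y hyW).1
  have hx_ne : ∀ l, l ≤ 2*m+1 → q' l ≠ x := by
    intro l hl h
    rcases Nat.eq_zero_or_pos l with h0 | h0
    · subst h0
      exact (Finset.disjoint_left.1 hv.disj) hx (h ▸ hq.start)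
    · exact hin l h0 hl (h ▸ hxW)
  have hy_ne : ∀ l, l ≤ 2*m+1 → q' l ≠ y := by
    intro l hl h
    rcases Nat.eq_zero_or_pos l with h0 | h0
    · subst h0
      exact hyW (h ▸ hv.subB hq.start)
    · rcases Nat.lt_or_ge l (2*m+1) with h1 | h1
      · have := hq.avoid l h0 h1
        simp only [mem_union, not_or] at this
        exact this.1.2 (h ▸ hy)
      · have : l = 2*m+1 := by omega
        rw [this, hend] at h
        exact (hv.closed y hyW).2 h
  have hxy' : x ≠ y := fun h => hyW (h ▸ hxW)
  refine ⟨?_, ?_, ?_, ?_, ?_, ?_⟩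
  · simpa using hx
  · have h1 : 2*(m+1)+1 ≠ 0 := by omega
    have h2 : 2*(m+1)+1 ≠ 1 := by omega
    have h3 : 2*m+3-(2*(m+1)+1) = 0 := by omega
    simp only [h1, h2, h3, if_false]
    exact hq.start
  · intro i j hi hj hij
    by_cases i0 : i = 0
    · by_cases j0 : j = 0
      · omega
      · by_cases j1 : j = 1
        · simp only [i0, j1, if_true, one_ne_zero, if_false] at hij
          exact absurd hij hxy'
        · simp only [i0, j0, j1, if_true, if_false] at hij
          exact absurd hij.symm (hx_ne _ (by omega))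
    · by_cases i1 : i = 1
      · by_cases j0 : j = 0
        · simp only [i1, j0, if_true, one_ne_zero, if_false] at hij
          exact absurd hij.symm hxy'
        · by_cases j1 : j = 1
          · omega
          · simp only [i1, j0, j1, if_true, one_ne_zero, if_false] at hij
            exact absurd hij.symm (hy_ne _ (by omega))
      · by_cases j0 : j = 0
        · simp only [i0, i1, j0, if_true, if_false] at hij
          exact absurd hij (hx_ne _ (by omega))
        · by_cases j1 : j = 1
          · simp only [i0, i1, j1, if_true, one_ne_zero, if_false] at hij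
            exact absurd hij (hy_ne _ (by omega))
          · simp only [i0, i1, j0, j1, if_false] at hij
            have := hq.inj _ _ (by omega) (by omega) hij
            omega
  · intro i hi
    rcases Nat.eq_zero_or_pos i with h0 | h0
    · subst h0
      simpa using hxy
    · have h1 : 2*i ≠ 0 := by omega
      have h2 : 2*i ≠ 1 := by omega
      have h3 : 2*i+1 ≠ 0 := by omega
      have h4 : 2*i+1 ≠ 1 := by omega
      have h5 : 2*m+3-2*i = 2*(m+1-i)+1 := by omega
      have h6 : 2*m+3-(2*i+1) = 2*(m+1-i) := by omega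
      simp only [h1, h2, h3, h4, h5, h6, if_false]
      exact (hq.adj (m+1-i) (by omega)).symm
  · intro i hi
    rcases Nat.eq_zero_or_pos i with h0 | h0
    · subst h0
      have h5 : 2*m+3-(2*0+2) = 2*m+1 := by omega
      simp only [h5, hend, Nat.mul_zero, Nat.zero_add, one_ne_zero, if_true, if_false]
      simp
    · have h1 : 2*i+2 ≠ 0 := by omega
      have h2 : 2*i+2 ≠ 1 := by omega
      have h3 : 2*i+1 ≠ 0 := by omega
      have h4 : 2*i+1 ≠ 1 := by omega
      have h5 : 2*m+3-(2*i+2) = 2*(m-i)+1 := by omega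
      have h6 : 2*m+3-(2*i+1) = 2*(m-i)+2 := by omega
      simp only [h1, h2, h3, h4, h5, h6, if_false]
      rw [← hq.mat (m-i) (by omega), hμ]
  · intro j h0 hj
    by_cases j1 : j = 1
    · simp only [j1, one_ne_zero, if_true, if_false]
      exact hyW
    · have j0 : j ≠ 0 := by omega
      simp only [j0, j1, if_false]
      exact hin _ (by omega) (by omega)

theorem ncard_eq_sum_ite {α : Type*} [Fintype α] (F : α → Prop) [DecidablePred F] :
    Set.ncard {x | F x} = ∑ x, if F x then 1 else 0 := by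
  rw [← Finset.card_filter, ← Set.ncard_coe_finset]
  congr 1
  ext x
  simp

theorem ncard_cons {α : Type*} [Fintype α] (m : ℕ) (F : (Fin (m+1) → α) → Prop) :
    Set.ncard {ω | F ω} = ∑ c : α, Set.ncard {ω' : Fin m → α | F (Fin.cons c ω')} := by
  classical
  rw [ncard_eq_sum_ite, ← (Fin.consEquiv (fun _ : Fin (m+1) => α)).sum_comp, Fintype.sum_prod_type]
  apply Finset.sum_congr rfl
  intro c _
  rw [ncard_eq_sum_ite]
  rfl

theorem ncard_le_card_pow {α : Type*} [Fintype α] (m : ℕ) (S : Set (Fin m → α)) :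
    (S.ncard : ℝ) ≤ (Fintype.card α : ℝ)^m := by
  have h1 : S.ncard ≤ (Set.univ : Set (Fin m → α)).ncard := Set.ncard_le_ncard (Set.subset_univ _)
  rw [Set.ncard_univ, Nat.card_eq_fintype_card, Fintype.card_fun, Fintype.card_fin] at h1
  exact_mod_cast h1

/-- The exploration bound: the fraction of colouring vectors without an open connector. -/
theorem explore (G : SimpleGraph V) [DecidableRel G.Adj] (μ : V → V) (hμ : Function.Involutive μ)
    (k : ℕ) [NeZero k] (δ T : ℕ) (hδ : 128 * k ≤ δ) (hmin : ∀ x, δ ≤ G.degree x)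
    (hgrow : ∀ L Z : Finset V, 2 * L.card ≤ 2^T → Z.card ≤ 28 * L.card →
      4 * (G.interedges L Z).card ≤ 3 * δ * L.card)
    (hjoin : ∀ A B : Finset V, 2^T ≤ 2 * A.card → 2^T ≤ B.card →
      2 * k ≤ (G.interedges A B).card) :
    ∀ (m : ℕ) (A B W : Finset V), Valid μ A B W → 1 ≤ A.card → A.card ≤ B.card →
      B.card ≤ 2 * A.card → W.card ≤ 4 * B.card → B.card * 2^m = 2^T →
      (Set.ncard {ω : Fin (m+1) → Col V k | ¬ ∃ q, Conn G μ A B W m q ∧ Opn m ω q} : ℝ) ≤
        (1/4 + (1/2)^(4*A.card) + 2 * (1/2)^(4*B.card)) * (Fintype.card (Col V k) : ℝ)^(m+1) := by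
  intro m
  induction m with
  | zero =>
    intro A B W hv hA hAB hBA hW hT
    have hj := join_bound G k A B (hjoin A B (by omega) (by omega))
    have hle : Set.ncard {ω : Fin (0+1) → Col V k | ¬ ∃ q, Conn G μ A B W 0 q ∧ Opn 0 ω q} ≤
        Set.ncard {c : Col V k | ¬ ∃ x ∈ A, ∃ y ∈ B, G.Adj x y ∧ c y x = 0} := by
      apply Set.ncard_le_ncard_of_injOn (fun ω => ω 0)
      · intro ω hω
        simp only [Set.mem_ofPred_eq] at hω ⊢
        rintro ⟨x, hx, y, hy, hxy, hc⟩
        apply hω
        refine ⟨fun j => if j = 0 then x else y, ⟨?_, ?_, ?_, ?_, ?_, ?_⟩, ?_⟩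
        · simpa using hx
        · simpa using hy
        · intro i j hi hj hij
          have hne : x ≠ y := G.ne_of_adj hxy
          by_cases i0 : i = 0 <;> by_cases j0 : j = 0
          · omega
          · simp only [i0, j0, if_true, if_false] at hij
            exact absurd hij hne
          · simp only [i0, j0, if_true, if_false] at hij
            exact absurd hij.symm hne
          · omega
        · intro i hi
          have : i = 0 := by omega
          subst this
          simpa using hxy
        · intro i hi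
          omega
        · intro j h0 hj
          omega
        · simpa [Opn] using hc
      · intro ω _ ω' _ h
        funext i
        have hi : (i : ℕ) = 0 := by have := i.isLt; omega
        have : i = 0 := Fin.ext hi
        rw [this]
        exact h
    have hK : (0:ℝ) ≤ (Fintype.card (Col V k) : ℝ) := by positivity
    have h1 : (0:ℝ) ≤ (1/2)^(4*A.card) := by positivity
    have h2 : (0:ℝ) ≤ (1/2)^(4*B.card) := by positivity
    have hle' : (Set.ncard {ω : Fin (0+1) → Col V k |
        ¬ ∃ q, Conn G μ A B W 0 q ∧ Opn 0 ω q} : ℝ) ≤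
        (Set.ncard {c : Col V k | ¬ ∃ x ∈ A, ∃ y ∈ B, G.Adj x y ∧ c y x = 0} : ℝ) := by
      exact_mod_cast hle
    have e1 : (Fintype.card (Col V k) : ℝ)^(0+1) = (Fintype.card (Col V k) : ℝ) := by simp
    rw [e1]
    nlinarith
  | succ m ih =>
    intro A B W hv hA hAB hBA hW hT
    classical
    set K : ℝ := (Fintype.card (Col V k) : ℝ) with hKdef
    have hK : (0:ℝ) ≤ K := by positivity
    set a := A.card with ha
    set b := B.card with hb
    have hTb : 2 * b ≤ 2^T := by
      have : 1 ≤ 2^m := Nat.one_le_two_pow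
      rw [← hT, pow_succ]
      nlinarith
    have hg := growth G k δ a hδ A W ha.symm (by omega) (fun x _ => hmin x)
      (fun Z hZ => hgrow A Z (by omega) hZ)
    set Bad : Set (Col V k) := {c : Col V k |
        Set.ncard {y : V | y ∉ W ∧ ∃ x ∈ A, G.Adj x y ∧ c y x = 0} < 4 * a} with hBad
    set g' : ℝ := 1/4 + (1/2)^(4*b) + 2 * (1/2)^(4*(2*b)) with hg'
    have hg'0 : 0 ≤ g' := by positivity
    have hterm : ∀ c : Col V k,
        (Set.ncard {ω' : Fin (m+1) → Col V k | ¬ ∃ q, Conn G μ A B W (m+1) q ∧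
          Opn (m+1) (Fin.cons c ω' : Fin (m+1+1) → Col V k) q} : ℝ) ≤
        (if c ∈ Bad then 1 else 0) * K^(m+1) + g' * K^(m+1) := by
      intro c
      by_cases hc : c ∈ Bad
      · rw [if_pos hc, one_mul]
        have := ncard_le_card_pow (m+1) {ω' : Fin (m+1) → Col V k |
          ¬ ∃ q, Conn G μ A B W (m+1) q ∧ Opn (m+1) (Fin.cons c ω' : Fin (m+1+1) → Col V k) q}
        have h2 : 0 ≤ g' * K^(m+1) := by positivity
        linarith
      · rw [if_neg hc, zero_mul, zero_add]
        simp only [hBad, Set.mem_ofPred_eq, not_lt] at hc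
        set Yc : Finset V := univ.filter
          (fun y => y ∉ W ∧ ∃ x ∈ A, G.Adj x y ∧ c y x = 0) with hYc
        have hYcard : 4 * a ≤ Yc.card := by
          have hset : (Yc : Set V) = {y : V | y ∉ W ∧ ∃ x ∈ A, G.Adj x y ∧ c y x = 0} := by
            ext y
            simp [Yc]
          rw [← Set.ncard_coe_finset, hset]
          exact hc
        obtain ⟨Y, hYsub, hYcard'⟩ := Finset.exists_subset_card_eq (s := Yc) (n := 2*b) (by omega)
        have hYW : ∀ y ∈ Y, y ∉ W := by
          intro y hy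
          have := hYsub hy
          simp only [hYc, mem_filter, mem_univ, true_and] at this
          exact this.1
        have hv' := hv.next hμ hYW
        have hIcard : (Y.image μ).card = 2 * b := by
          rw [Finset.card_image_of_injective _ hμ.injective, hYcard']
        have hW' : (W ∪ Y ∪ Y.image μ).card ≤ 4 * (Y.image μ).card := by
          have h1 := Finset.card_union_le (W ∪ Y) (Y.image μ)
          have h2 := Finset.card_union_le W Y
          omega
        have hih := ih B (Y.image μ) (W ∪ Y ∪ Y.image μ) hv' (by omega) (by omega) (by omega) hW'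
          (by rw [hIcard, ← hT, pow_succ]; ring)
        rw [hIcard] at hih
        refine le_trans ?_ hih
        have hsub : {ω' : Fin (m+1) → Col V k | ¬ ∃ q, Conn G μ A B W (m+1) q ∧
            Opn (m+1) (Fin.cons c ω' : Fin (m+1+1) → Col V k) q} ⊆
            {ω : Fin (m+1) → Col V k |
              ¬ ∃ q, Conn G μ B (Y.image μ) (W ∪ Y ∪ Y.image μ) m q ∧ Opn m ω q} := by
          intro ω' hω'
          simp only [Set.mem_ofPred_eq] at hω' ⊢
          rintro ⟨q', hq', ho'⟩
          apply hω'
          obtain ⟨y, hy, hyq⟩ := Finset.mem_image.1 hq'.finish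
          have hyc := hYsub hy
          simp only [hYc, mem_filter, mem_univ, true_and] at hyc
          obtain ⟨-, x, hx, hxy, hcxy⟩ := hyc
          refine ⟨_, hq'.extend hμ hv hYW hx hy hxy hyq.symm, ?_⟩
          simp only [Opn, Fin.cons_zero, Fin.tail_cons]
          refine ⟨by simpa using hcxy, ?_⟩
          refine Opn_congr m ω' ?_ ho'
          intro j hj
          have h1 : 2*m+3-j ≠ 0 := by omega
          have h2 : 2*m+3-j ≠ 1 := by omega
          have h3 : 2*m+3-(2*m+3-j) = j := by omega
          simp only [h1, h2, h3, if_false]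
        exact_mod_cast Set.ncard_le_ncard hsub
    have hsum : (Set.ncard {ω : Fin (m+1+1) → Col V k |
        ¬ ∃ q, Conn G μ A B W (m+1) q ∧ Opn (m+1) ω q} : ℝ) ≤
        ∑ c : Col V k, ((if c ∈ Bad then 1 else 0) * K^(m+1) + g' * K^(m+1)) := by
      rw [ncard_cons]
      push_cast
      exact Finset.sum_le_sum (fun c _ => hterm c)
    rw [Finset.sum_add_distrib, ← Finset.sum_mul, Finset.sum_const, Finset.card_univ,
      nsmul_eq_mul] at hsum
    have hbadcard : (∑ c : Col V k, (if c ∈ Bad then (1:ℝ) else 0)) = (Bad.ncard : ℝ) := by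
      have := ncard_eq_sum_ite (fun c : Col V k => c ∈ Bad)
      simp only [Set.ofPred_mem_eq] at this
      rw [this]
      push_cast
      rfl
    rw [hbadcard] at hsum
    have hpow : (0:ℝ) < 2^(4*a) := by positivity
    have hbad2 : (Bad.ncard : ℝ) ≤ (1/2)^(4*a) * K := by
      have : ((1:ℝ)/2)^(4*a) = 1 / 2^(4*a) := by
        rw [div_pow, one_pow]
      rw [this, div_mul_eq_mul_div, one_mul, le_div_iff₀ hpow]
      exact hg
    have hKm : (0:ℝ) ≤ K^(m+1) := by positivity
    have ht : ((1:ℝ)/2)^(4*(2*b)) = ((1/2)^(4*b))^2 := by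
      rw [← pow_mul]; congr 1; ring
    have ht2 : ((1:ℝ)/2)^(4*b) ≤ 1/2 := by
      calc ((1:ℝ)/2)^(4*b) ≤ (1/2)^1 := by
            apply pow_le_pow_of_le_one (by norm_num) (by norm_num) (by omega)
        _ = 1/2 := by norm_num
    have ht0 : (0:ℝ) ≤ (1/2)^(4*b) := by positivity
    have hfin : (1/2)^(4*a) + g' ≤ 1/4 + (1/2)^(4*a) + 2 * (1/2)^(4*b) := by
      rw [hg', ht]
      nlinarith
    calc (Set.ncard {ω : Fin (m+1+1) → Col V k |
        ¬ ∃ q, Conn G μ A B W (m+1) q ∧ Opn (m+1) ω q} : ℝ)
        ≤ (Bad.ncard : ℝ) * K^(m+1) + K * (g' * K^(m+1)) := hsum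
      _ ≤ ((1/2)^(4*a) * K) * K^(m+1) + K * (g' * K^(m+1)) := by
          gcongr
      _ = ((1/2)^(4*a) + g') * K^(m+1+1) := by ring
      _ ≤ (1/4 + (1/2)^(4*a) + 2 * (1/2)^(4*b)) * K^(m+1+1) := by
          gcongr

end Vale.Agent.P308
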