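import Vale.Agent.P308.AugPath

namespace Vale.Agent.P308

open SimpleGraph

variable {V : Type*} {G : SimpleGraph V}

/-- pigeonhole: `k+1` distinct vertices in a graph with no independent set of size `> k`
contain an edge -/
theorem indep_pigeon {k : ℕ} (hα : ∀ s : Finset V, G.IsIndepSet (s : Set V) → s.card ≤ k)
    (f : ℕ → V) (hf : ∀ i j, i ≤ k → j ≤ k → f i = f j → i = j) :
    ∃ i j, i < j ∧ j ≤ k ∧ G.Adj (f i) (f j) := by
  classical
  by_contra hcon
  push Not at hcon
  have hcard : ((Finset.range (k+1)).image f).card = k+1 := by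
    rw [Finset.card_image_of_injOn, Finset.card_range]
    intro i hi j hj hij
    simp only [Finset.coe_range, Set.mem_Iio] at hi hj
    exact hf i j (by omega) (by omega) hij
  have hind : G.IsIndepSet (((Finset.range (k+1)).image f : Finset V) : Set V) := by
    intro a ha b hb hab
    simp only [Finset.coe_image, Finset.coe_range, Set.mem_image, Set.mem_Iio] at ha hb
    obtain ⟨i, hi, rfl⟩ := ha
    obtain ⟨j, hj, rfl⟩ := hb
    rcases lt_trichotomy i j with hij | hij | hij
    · exact hcon i j hij (by omega)
    · exact absurd (by rw [hij]) hab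
    · intro hadj
      exact hcon j i hij (by omega) hadj.symm
  have := hα _ hind
  omega

theorem AugPath.exists_shortcut {M : G.Subgraph} {u v : V} {t : ℕ} {p : ℕ → V}
    (h : AugPath G M u v t p) {k : ℕ}
    (hα : ∀ s : Finset V, G.IsIndepSet (s : Set V) → s.card ≤ k)
    (ht : (k+1)*(k+1) ≤ t+1) :
    ∃ x y b, x < y ∧ y < b ∧ b ≤ t ∧ G.Adj (p (2*x)) (p (2*y)) ∧
      G.Adj (p (2*x+1)) (p (2*b+1)) := by
  have hblock : ∀ m, m ≤ k → ∀ r, r ≤ k → m*(k+1)+r ≤ t := by
    intro m hm r hr
    have : m*(k+1) ≤ k*(k+1) := Nat.mul_le_mul_right _ hm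
    nlinarith
  have h1 : ∀ m, ∃ x y, m ≤ k → (m*(k+1) ≤ x ∧ x < y ∧ y ≤ m*(k+1)+k ∧
      G.Adj (p (2*x)) (p (2*y))) := by
    intro m
    by_cases hm : m ≤ k
    · obtain ⟨i, j, hij, hj, hadj⟩ := indep_pigeon hα (fun r => p (2*(m*(k+1)+r))) (by
        intro i j hi hj hij
        have := h.inj _ _ (by have := hblock m hm i hi; omega)
          (by have := hblock m hm j hj; omega) hij
        omega)
      exact ⟨m*(k+1)+i, m*(k+1)+j, fun _ => ⟨by omega, by omega, by omega, hadj⟩⟩
    · exact ⟨0, 0, fun h => absurd h hm⟩
  choose X Y hXY using h1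
  obtain ⟨m, m', hmm', hm', hadj⟩ := indep_pigeon hα (fun m => p (2*(X m)+1)) (by
    intro i j hi hj hij
    obtain ⟨a1, a2, a3, -⟩ := hXY i hi
    obtain ⟨b1, b2, b3, -⟩ := hXY j hj
    have := h.inj _ _ (by have := hblock i hi k le_rfl; omega)
      (by have := hblock j hj k le_rfl; omega) hij
    have hX : X i = X j := by omega
    by_contra hne
    rcases lt_or_gt_of_ne hne with hlt | hlt
    · have : (i+1)*(k+1) ≤ j*(k+1) := Nat.mul_le_mul_right _ hlt
      nlinarith
    · have : (j+1)*(k+1) ≤ i*(k+1) := Nat.mul_le_mul_right _ hlt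
      nlinarith)
  obtain ⟨a1, a2, a3, a4⟩ := hXY m (by omega)
  obtain ⟨b1, b2, b3, -⟩ := hXY m' hm'
  refine ⟨X m, Y m, X m', a2, ?_, ?_, a4, hadj⟩
  · have : (m+1)*(k+1) ≤ m'*(k+1) := Nat.mul_le_mul_right _ hmm'
    nlinarith
  · have := hblock m' hm' k le_rfl
    omega

/-- the alternating sequence obtained from the partner functions -/
def altSeq (u : V) (f m : V → V) : ℕ → V
  | 0 => u
  | n+1 => if n % 2 = 0 then f (altSeq u f m n) else m (altSeq u f m n)

theorem exists_augPath [Finite V] {M M' : G.Subgraph} {u v : V}
    (hM : M.IsMatching) (hverts : ∀ w, w ∈ M.verts ↔ (w ≠ u ∧ w ≠ v))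
    (hM' : M'.IsPerfectMatching) :
    ∃ t p, AugPath G M u v t p := by
  classical
  rw [Subgraph.isPerfectMatching_iff] at hM'
  choose f hf hfu using hM'
  have hff : ∀ a, f (f a) = a := fun a => (hfu (f a) a (hf a).symm).symm
  have hm0 : ∀ w, ∃ x, w ∈ M.verts → M.Adj w x := by
    intro w
    by_cases hw : w ∈ M.verts
    · obtain ⟨x, hx, -⟩ := hM hw
      exact ⟨x, fun _ => hx⟩
    · exact ⟨w, fun h => absurd h hw⟩
  choose m hm using hm0
  set p := altSeq u f m with hp
  have p0 : p 0 = u := rfl
  have pe : ∀ n, n % 2 = 0 → p (n+1) = f (p n) := by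
    intro n hn
    simp [hp, altSeq, hn]
  have po : ∀ n, n % 2 = 1 → p (n+1) = m (p n) := by
    intro n hn
    simp [hp, altSeq, hn]
  have key : ∀ n, (∀ j, j < n → j % 2 = 1 → p j ≠ v) → ∀ j, j ≤ n → ∀ i, i < j → p i ≠ p j := by
    intro n
    induction n with
    | zero => intro _ j hj i hi; omega
    | succ n ih =>
      intro hn j hj i hi
      have IH := ih (fun j hj => hn j (by omega))
      rcases Nat.lt_or_ge j (n+1) with hj' | hj'
      · exact IH j (by omega) i hi
      · have hjn : j = n+1 := by omega
        subst hjn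
        intro heq
        rcases Nat.mod_two_eq_zero_or_one n with hpar | hpar
        · -- n even
          rw [pe n hpar] at heq
          have h2 : f (p i) = p n := by rw [heq, hff]
          rcases Nat.mod_two_eq_zero_or_one i with hi2 | hi2
          · rcases Nat.lt_or_ge i n with hin | hin
            · have h3 : p (i+1) = p n := by rw [pe i hi2, h2]
              exact IH n le_rfl (i+1) (by omega) h3
            · have hin' : i = n := by omega
              subst hin'
              have := hf (p i)
              rw [h2] at this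
              exact (M'.adj_sub this).ne rfl
          · obtain ⟨i', rfl⟩ : ∃ i', i = i'+1 := ⟨i-1, by omega⟩
            have h3 : p (i'+1) = f (p i') := pe i' (by omega)
            rw [h3, hff] at h2
            exact IH n le_rfl i' (by omega) h2
        · -- n odd
          rw [po n hpar] at heq
          have hnv : p n ≠ v := hn n (by omega) hpar
          have hnu : p n ≠ u := by
            intro h
            exact IH n le_rfl 0 (by omega) (by rw [p0, h])
          have hmem : p n ∈ M.verts := (hverts _).2 ⟨hnu, hnv⟩
          have hadj : M.Adj (p n) (p i) := by rw [heq]; exact hm _ hmem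
          rcases Nat.mod_two_eq_zero_or_one i with hi2 | hi2
          · rcases Nat.eq_zero_or_pos i with hi0 | hi0
            · subst hi0
              have : p 0 ∈ M.verts := M.edge_vert hadj.symm
              exact ((hverts _).1 this).1 p0
            · obtain ⟨i', rfl⟩ : ∃ i', i = i'+1 := ⟨i-1, by omega⟩
              have hi'v : p i' ≠ v := hn i' (by omega) (by omega)
              have hi'u : p i' ≠ u := by
                intro h
                exact IH i' (by omega) 0 (by omega) (by rw [p0, h])
              have hmem' : p i' ∈ M.verts := (hverts _).2 ⟨hi'u, hi'v⟩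
              have hadj' : M.Adj (p i') (p (i'+1)) := by
                rw [po i' (by omega)]; exact hm _ hmem'
              have := hM.eq_of_adj_right hadj' hadj
              exact IH n le_rfl i' (by omega) this
          · rcases Nat.lt_or_ge i n with hin | hin
            · have hmemi : p i ∈ M.verts := M.edge_vert hadj.symm
              have hadj2 : M.Adj (p i) (p (i+1)) := by rw [po i hi2]; exact hm _ hmemi
              have := hM.eq_of_adj_left hadj2 hadj.symm
              exact IH n le_rfl (i+1) (by omega) this
            · have hin' : i = n := by omega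
              subst hin'
              exact (M.adj_sub hadj).ne rfl
  have hex : ∃ j, j % 2 = 1 ∧ p j = v := by
    by_contra hcon
    push Not at hcon
    have hinj : Function.Injective p := by
      intro a b hab
      by_contra hne
      rcases lt_or_gt_of_ne hne with hlt | hlt
      · exact key b (fun j _ hj => hcon j hj) b le_rfl a hlt hab
      · exact key a (fun j _ hj => hcon j hj) a le_rfl b hlt hab.symm
    exact not_injective_infinite_finite p hinj
  obtain ⟨hj1, hj2⟩ := Nat.find_spec hex
  have hmin : ∀ j, j < Nat.find hex → j % 2 = 1 → p j ≠ v := by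
    intro j hj hj' hjv
    exact Nat.find_min hex hj ⟨hj', hjv⟩
  set j0 := Nat.find hex with hj0
  have K := key j0 hmin
  refine ⟨j0 / 2, p, p0, ?_, ?_, ?_, ?_⟩
  · have : 2 * (j0/2) + 1 = j0 := by omega
    rw [this]; exact hj2
  · intro a b ha hb hab
    by_contra hne
    rcases lt_or_gt_of_ne hne with hlt | hlt
    · exact K b (by omega) a hlt hab
    · exact K a (by omega) b hlt hab.symm
  · intro i _
    rw [pe (2*i) (by omega)]
    exact M'.adj_sub (hf _)
  · intro i hi
    have e : 2*i+2 = (2*i+1)+1 := rfl
    rw [e, po (2*i+1) (by omega)]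
    apply hm
    refine (hverts _).2 ⟨?_, hmin _ (by omega) (by omega)⟩
    intro h
    exact K (2*i+1) (by omega) 0 (by omega) (by rw [p0, h])

end Vale.Agent.P308
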