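import Vale.Agent.P308.ColourCount

namespace Vale.Agent.P308

open Finset

variable {V : Type*} [Fintype V] [DecidableEq V]

/-! ### real estimates -/

theorem one_sub_inv_nonneg (k : ℕ) (hk : 0 < k) : 0 ≤ 1 - 1 / (k : ℝ) := by
  have : (1 : ℝ) ≤ k := by exact_mod_cast hk
  have h2 : 1 / (k : ℝ) ≤ 1 := by
    rw [div_le_one (by linarith)]; exact this
  linarith

theorem one_sub_inv_le_one (k : ℕ) : 1 - 1 / (k : ℝ) ≤ 1 := by
  have : 0 ≤ 1 / (k : ℝ) := by positivity
  linarith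

theorem pow_le_exp_neg (k e : ℕ) (hk : 0 < k) :
    (1 - 1 / (k : ℝ)) ^ e ≤ Real.exp (-((e : ℝ) / k)) := by
  have h1 : 1 - 1 / (k : ℝ) ≤ Real.exp (-(1 / (k : ℝ))) := by
    have := Real.add_one_le_exp (-(1 / (k : ℝ)))
    linarith
  calc (1 - 1 / (k : ℝ)) ^ e ≤ (Real.exp (-(1 / (k : ℝ)))) ^ e :=
        pow_le_pow_left₀ (one_sub_inv_nonneg k hk) h1 e
    _ = Real.exp (-((e : ℝ) / k)) := by
        rw [← Real.exp_nat_mul]; congr 1; ring

theorem exp_neg_one_le_half : Real.exp (-1) ≤ 1 / 2 := by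
  have h := Real.add_one_le_exp (1 : ℝ)
  rw [Real.exp_neg, inv_eq_one_div]
  exact one_div_le_one_div_of_le (by norm_num) (by linarith)

theorem factor_nonneg (k e : ℕ) (hk : 0 < k) : 0 ≤ (1 + (1 - 1 / (k : ℝ)) ^ e) / 2 := by
  have := pow_nonneg (one_sub_inv_nonneg k hk) e
  linarith

theorem factor_le_one (k e : ℕ) (hk : 0 < k) : (1 + (1 - 1 / (k : ℝ)) ^ e) / 2 ≤ 1 := by
  have := pow_le_one₀ (n := e) (one_sub_inv_nonneg k hk) (one_sub_inv_le_one k)
  linarith

theorem factor_heavy (k e : ℕ) (hk : 0 < k) (he : k ≤ e) :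
    (1 + (1 - 1 / (k : ℝ)) ^ e) / 2 ≤ 3 / 4 := by
  have hk' : (0 : ℝ) < k := by exact_mod_cast hk
  have h1 := pow_le_exp_neg k e hk
  have h2 : Real.exp (-((e : ℝ) / k)) ≤ Real.exp (-1) := by
    apply Real.exp_le_exp.2
    have : (1 : ℝ) ≤ (e : ℝ) / k := by
      rw [le_div_iff₀ hk']; simpa using (by exact_mod_cast he : (k : ℝ) ≤ e)
    linarith
  have h3 := exp_neg_one_le_half
  linarith

theorem factor_light (k e : ℕ) (hk : 0 < k) (he : e ≤ k) :
    (1 + (1 - 1 / (k : ℝ)) ^ e) / 2 ≤ Real.exp (-((e : ℝ) / (4 * k))) := by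
  have hk' : (0 : ℝ) < k := by exact_mod_cast hk
  set x : ℝ := (e : ℝ) / k with hx
  have hx0 : 0 ≤ x := by positivity
  have hx1 : x ≤ 1 := by
    rw [hx, div_le_one hk']; exact_mod_cast he
  have h1 : (1 - 1 / (k : ℝ)) ^ e ≤ Real.exp (-x) := pow_le_exp_neg k e hk
  have h2 : Real.exp (-x) ≤ 1 - x / 2 := by
    have h3 : 1 + x ≤ Real.exp x := by have := Real.add_one_le_exp x; linarith
    rw [Real.exp_neg]
    have h4 : (Real.exp x)⁻¹ ≤ (1 + x)⁻¹ := inv_anti₀ (by linarith) h3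
    have h5 : (1 + x)⁻¹ ≤ 1 - x / 2 := by
      rw [inv_le_iff_one_le_mul₀ (by linarith)]
      nlinarith
    linarith
  have h6 : 1 - x / 4 ≤ Real.exp (-(x / 4)) := by
    have := Real.add_one_le_exp (-(x / 4)); linarith
  have h7 : (e : ℝ) / (4 * k) = x / 4 := by rw [hx]; field_simp
  rw [h7]
  linarith

/-! ### double counting -/

omit [Fintype V] [DecidableEq V] in
theorem card_interedges_eq_sum (G : SimpleGraph V) [DecidableRel G.Adj] (L Z : Finset V) :
    (G.interedges L Z).card = ∑ y ∈ Z, (L.filter (fun x => G.Adj x y)).card := by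
  unfold SimpleGraph.interedges Rel.interedges
  rw [Finset.card_filter, Finset.sum_product_right]
  refine Finset.sum_congr rfl fun y _ => ?_
  rw [Finset.card_filter]

omit [DecidableEq V] in
theorem sum_degree_eq_sum (G : SimpleGraph V) [DecidableRel G.Adj] (L : Finset V) :
    ∑ x ∈ L, G.degree x = ∑ y, (L.filter (fun x => G.Adj x y)).card := by
  rw [← card_interedges_eq_sum]
  unfold SimpleGraph.interedges Rel.interedges
  rw [Finset.card_filter, Finset.sum_product]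
  refine Finset.sum_congr rfl fun x _ => ?_
  rw [← Finset.card_filter, ← SimpleGraph.card_neighborFinset_eq_degree]
  congr 1
  ext y
  simp

/-! ### the key product estimate -/

theorem prod_bound (G : SimpleGraph V) [DecidableRel G.Adj] (k : ℕ) (hk : 0 < k) (δ s : ℕ)
    (hδ : 128 * k ≤ δ) (L W : Finset V) (hL : L.card = s) (hW : W.card ≤ 8 * s)
    (hdeg : ∀ x ∈ L, δ ≤ G.degree x)
    (hsparse : ∀ Z : Finset V, Z.card ≤ 28 * s → 4 * (G.interedges L Z).card ≤ 3 * δ * s) :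
    ∏ y ∈ univ.filter (fun y => y ∉ W),
        (1 + (1 - 1 / (k : ℝ)) ^ (L.filter (fun x => G.Adj x y)).card) / 2
      ≤ (1 / 2 : ℝ) ^ (8 * s) := by
  have hk' : (0 : ℝ) < k := by exact_mod_cast hk
  set e : V → ℕ := fun y => (L.filter (fun x => G.Adj x y)).card with he
  set g : V → ℝ := fun y => (1 + (1 - 1 / (k : ℝ)) ^ e y) / 2 with hg
  set U : Finset V := univ.filter (fun y => y ∉ W) with hU
  set H : Finset V := U.filter (fun y => k ≤ e y) with hH
  set Lt : Finset V := U.filter (fun y => ¬ k ≤ e y) with hLt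
  have hsplit : ∏ y ∈ U, g y = (∏ y ∈ H, g y) * ∏ y ∈ Lt, g y :=
    (Finset.prod_filter_mul_prod_filter_not U _ g).symm
  have g0 : ∀ y, 0 ≤ g y := fun y => factor_nonneg k (e y) hk
  have g1 : ∀ y, g y ≤ 1 := fun y => factor_le_one k (e y) hk
  have hH1 : ∏ y ∈ H, g y ≤ 1 := Finset.prod_le_one (fun y _ => g0 y) (fun y _ => g1 y)
  have hLt1 : ∏ y ∈ Lt, g y ≤ 1 := Finset.prod_le_one (fun y _ => g0 y) (fun y _ => g1 y)
  have hH0 : 0 ≤ ∏ y ∈ H, g y := Finset.prod_nonneg (fun y _ => g0 y)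
  have hLt0 : 0 ≤ ∏ y ∈ Lt, g y := Finset.prod_nonneg (fun y _ => g0 y)
  change ∏ y ∈ U, g y ≤ _
  rw [hsplit]
  by_cases hcase : 20 * s ≤ H.card
  · have h1 : ∏ y ∈ H, g y ≤ (3 / 4 : ℝ) ^ H.card := by
      rw [← Finset.prod_const]
      refine Finset.prod_le_prod (fun y _ => g0 y) (fun y hy => ?_)
      exact factor_heavy k (e y) hk (Finset.mem_filter.1 hy).2
    have h2 : (3 / 4 : ℝ) ^ H.card ≤ (3 / 4 : ℝ) ^ (20 * s) :=
      pow_le_pow_of_le_one (by norm_num) (by norm_num) hcase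
    have h3 : (3 / 4 : ℝ) ^ (20 * s) ≤ (1 / 2 : ℝ) ^ (8 * s) := by
      rw [pow_mul, pow_mul]
      exact pow_le_pow_left₀ (by positivity) (by norm_num) s
    calc (∏ y ∈ H, g y) * ∏ y ∈ Lt, g y ≤ (∏ y ∈ H, g y) * 1 :=
          mul_le_mul_of_nonneg_left hLt1 hH0
      _ ≤ (1 / 2 : ℝ) ^ (8 * s) := by rw [mul_one]; exact h1.trans (h2.trans h3)
  · have hHc : H.card < 20 * s := not_le.1 hcase
    set Z : Finset V := W ∪ H with hZ
    have hZc : Z.card ≤ 28 * s := by
      have : Z.card ≤ W.card + H.card := Finset.card_union_le W H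
      omega
    have hsp := hsparse Z hZc
    rw [card_interedges_eq_sum] at hsp
    have htot : δ * s ≤ ∑ y, e y := by
      rw [← sum_degree_eq_sum, ← hL, mul_comm, ← smul_eq_mul]
      exact Finset.card_nsmul_le_sum L _ δ hdeg
    have hcompl : Zᶜ = Lt := by
      ext y
      simp only [hZ, hLt, hH, hU, Finset.mem_compl, Finset.mem_union, Finset.mem_filter,
        Finset.mem_univ, true_and]
      tauto
    have hadd : ∑ y ∈ Z, e y + ∑ y ∈ Lt, e y = ∑ y, e y := by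
      rw [← hcompl]; exact Finset.sum_add_sum_compl Z e
    have hlight : 128 * k * s ≤ 4 * ∑ y ∈ Lt, e y := by
      have h1 : 128 * k * s ≤ δ * s := Nat.mul_le_mul_right s hδ
      have h2 : 3 * δ * s = 3 * (δ * s) := by ring
      change 4 * ∑ y ∈ Z, e y ≤ 3 * δ * s at hsp
      omega
    have h1 : ∏ y ∈ Lt, g y ≤ Real.exp (-(∑ y ∈ Lt, (e y : ℝ) / (4 * k))) := by
      rw [← Finset.sum_neg_distrib, Real.exp_sum]
      refine Finset.prod_le_prod (fun y _ => g0 y) (fun y hy => ?_)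
      exact factor_light k (e y) hk (not_le.1 (Finset.mem_filter.1 hy).2).le
    have h2 : (8 * s : ℝ) ≤ ∑ y ∈ Lt, (e y : ℝ) / (4 * k) := by
      rw [← Finset.sum_div, le_div_iff₀ (by positivity)]
      have : ((128 * k * s : ℕ) : ℝ) ≤ ((4 * ∑ y ∈ Lt, e y : ℕ) : ℝ) := by exact_mod_cast hlight
      push_cast at this
      nlinarith
    have h3 : Real.exp (-(∑ y ∈ Lt, (e y : ℝ) / (4 * k))) ≤ (1 / 2 : ℝ) ^ (8 * s) := by
      calc Real.exp (-(∑ y ∈ Lt, (e y : ℝ) / (4 * k))) ≤ Real.exp (((8 * s : ℕ) : ℝ) * (-1)) := by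
            apply Real.exp_le_exp.2
            push_cast
            linarith
        _ = (Real.exp (-1)) ^ (8 * s) := Real.exp_nat_mul _ _
        _ ≤ (1 / 2 : ℝ) ^ (8 * s) :=
            pow_le_pow_left₀ (Real.exp_pos _).le exp_neg_one_le_half _
    calc (∏ y ∈ H, g y) * ∏ y ∈ Lt, g y ≤ 1 * ∏ y ∈ Lt, g y :=
          mul_le_mul_of_nonneg_right hH1 hLt0
      _ ≤ (1 / 2 : ℝ) ^ (8 * s) := by rw [one_mul]; exact h1.trans h3

/-! ### counting -/

theorem ncard_setOf_eq_card_filter {α : Type*} [Fintype α] (P : α → Prop) [DecidablePred P] :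
    Set.ncard {a | P a} = (univ.filter P).card := by
  rw [← Set.ncard_coe_finset]
  congr 1
  ext a
  simp

open Classical in
/-- the sum of the weight of one row -/
theorem sum_row (G : SimpleGraph V) [DecidableRel G.Adj] (k : ℕ) [NeZero k] (L : Finset V) (y : V) :
    ∑ f : V → Fin k, (if (∃ x ∈ L, G.Adj x y ∧ f x = 0) then (1 / 2 : ℝ) else 1)
      = (k : ℝ) ^ (Fintype.card V)
        * ((1 + (1 - 1 / (k : ℝ)) ^ (L.filter (fun x => G.Adj x y)).card) / 2) := by
  have ha := card_avoid (ι := V) k (L.filter (fun x => G.Adj x y))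
  rw [ncard_setOf_eq_card_filter] at ha
  have hcard : ((univ : Finset (V → Fin k)).card : ℝ) = (k : ℝ) ^ (Fintype.card V) := by
    rw [Finset.card_univ, Fintype.card_fun, Fintype.card_fin]; push_cast; rfl
  have hterm : ∀ f : V → Fin k, (if (∃ x ∈ L, G.Adj x y ∧ f x = 0) then (1 / 2 : ℝ) else 1)
      = 1 / 2 + 1 / 2 * (if (∀ i ∈ L.filter (fun x => G.Adj x y), f i ≠ 0) then (1 : ℝ) else 0) := by
    intro f
    by_cases h : ∃ x ∈ L, G.Adj x y ∧ f x = 0
    · have h' : ¬ ∀ i ∈ L.filter (fun x => G.Adj x y), f i ≠ 0 := by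
        obtain ⟨x, hx, hxy, hf⟩ := h
        intro hall
        exact hall x (Finset.mem_filter.2 ⟨hx, hxy⟩) hf
      rw [if_pos h, if_neg h']; ring
    · have h' : ∀ i ∈ L.filter (fun x => G.Adj x y), f i ≠ 0 := by
        intro i hi hf
        exact h ⟨i, (Finset.mem_filter.1 hi).1, (Finset.mem_filter.1 hi).2, hf⟩
      rw [if_neg h, if_pos h']; ring
  rw [Finset.sum_congr rfl (fun f _ => hterm f), Finset.sum_add_distrib, ← Finset.mul_sum,
    Finset.sum_const, nsmul_eq_mul, hcard, Finset.sum_boole, ha]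
  ring

/-- Growth lemma.  `L` is a set of `s` vertices of degree at least `δ ≥ 128 k`, `W` a set of at
most `8 s` forbidden vertices, and `L` sends at most `3/4 δ s` darts into any set of at most
`28 s` vertices.  Then for all but a fraction `2^(-4s)` of the colourings, at least `4 s` vertices
outside `W` receive an open dart from `L`. -/
theorem growth (G : SimpleGraph V) [DecidableRel G.Adj] (k : ℕ) [NeZero k] (δ s : ℕ)
    (hδ : 128 * k ≤ δ) (L W : Finset V) (hL : L.card = s) (hW : W.card ≤ 8 * s)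
    (hdeg : ∀ x ∈ L, δ ≤ G.degree x)
    (hsparse : ∀ Z : Finset V, Z.card ≤ 28 * s → 4 * (G.interedges L Z).card ≤ 3 * δ * s) :
    (Set.ncard {c : Col V k |
        Set.ncard {y : V | y ∉ W ∧ ∃ x ∈ L, G.Adj x y ∧ c y x = 0} < 4 * s} : ℝ) * 2^(4*s) ≤
      (Fintype.card (Col V k) : ℝ) := by
  classical
  have hk : 0 < k := Nat.pos_of_ne_zero (NeZero.ne k)
  set N := Fintype.card V with hN
  -- the weight of a row
  set φ : V → (V → Fin k) → ℝ := fun y f =>
    if y ∉ W then (if (∃ x ∈ L, G.Adj x y ∧ f x = 0) then (1 / 2 : ℝ) else 1) else 1 with hφ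
  have hprod : ∀ c : Col V k, ∏ y, φ y (c y)
      = (1 / 2 : ℝ) ^ (Set.ncard {y : V | y ∉ W ∧ ∃ x ∈ L, G.Adj x y ∧ c y x = 0}) := by
    intro c
    rw [ncard_setOf_eq_card_filter, ← Finset.prod_const, Finset.prod_filter]
    refine Finset.prod_congr rfl fun y _ => ?_
    simp only [hφ]
    by_cases h1 : y ∉ W
    · by_cases h2 : ∃ x ∈ L, G.Adj x y ∧ c y x = 0
      · rw [if_pos h1, if_pos h2, if_pos ⟨h1, h2⟩]
      · rw [if_pos h1, if_neg h2, if_neg (fun h => h2 h.2)]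
    · rw [if_neg h1, if_neg (fun h => h1 h.1)]
  have hind : ∀ c : Col V k,
      (if Set.ncard {y : V | y ∉ W ∧ ∃ x ∈ L, G.Adj x y ∧ c y x = 0} < 4 * s then (1 : ℝ) else 0)
        ≤ 2 ^ (4 * s) * ∏ y, φ y (c y) := by
    intro c
    rw [hprod c]
    split_ifs with h
    · have h1 : (1 / 2 : ℝ) ^ (4 * s)
          ≤ (1 / 2 : ℝ) ^ (Set.ncard {y : V | y ∉ W ∧ ∃ x ∈ L, G.Adj x y ∧ c y x = 0}) :=
        pow_le_pow_of_le_one (by norm_num) (by norm_num) h.le
      calc (1 : ℝ) = 2 ^ (4 * s) * (1 / 2 : ℝ) ^ (4 * s) := by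
            rw [← mul_pow]; norm_num
        _ ≤ _ := mul_le_mul_of_nonneg_left h1 (by positivity)
    · positivity
  have hcount : (Set.ncard {c : Col V k |
        Set.ncard {y : V | y ∉ W ∧ ∃ x ∈ L, G.Adj x y ∧ c y x = 0} < 4 * s} : ℝ)
      ≤ 2 ^ (4 * s) * ∑ c : Col V k, ∏ y, φ y (c y) := by
    rw [ncard_setOf_eq_card_filter, ← Finset.sum_boole, Finset.mul_sum]
    exact Finset.sum_le_sum fun c _ => hind c
  have hswap : ∑ c : Col V k, ∏ y, φ y (c y) = ∏ y, ∑ f : V → Fin k, φ y f := by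
    rw [Finset.prod_univ_sum, Fintype.piFinset_univ]
  have hrow : ∀ y, ∑ f : V → Fin k, φ y f = (k : ℝ) ^ N *
      (if y ∉ W then (1 + (1 - 1 / (k : ℝ)) ^ (L.filter (fun x => G.Adj x y)).card) / 2 else 1) := by
    intro y
    simp only [hφ]
    by_cases h1 : y ∉ W
    · simp only [if_pos h1]
      exact sum_row G k L y
    · simp only [if_neg h1]
      rw [Finset.sum_const, nsmul_eq_mul, Finset.card_univ, Fintype.card_fun, Fintype.card_fin]
      push_cast
      ring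
  have hK : (Fintype.card (Col V k) : ℝ) = ((k : ℝ) ^ N) ^ N := by
    rw [Fintype.card_fun, Fintype.card_fun, Fintype.card_fin]; push_cast; rfl
  have hfinal : ∑ c : Col V k, ∏ y, φ y (c y) ≤ ((k : ℝ) ^ N) ^ N * (1 / 2 : ℝ) ^ (8 * s) := by
    rw [hswap, Finset.prod_congr rfl (fun y _ => hrow y), Finset.prod_mul_distrib,
      Finset.prod_const, Finset.card_univ, ← Finset.prod_filter]
    exact mul_le_mul_of_nonneg_left (prod_bound G k hk δ s hδ L W hL hW hdeg hsparse)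
      (by positivity)
  rw [hK]
  calc (Set.ncard {c : Col V k |
        Set.ncard {y : V | y ∉ W ∧ ∃ x ∈ L, G.Adj x y ∧ c y x = 0} < 4 * s} : ℝ) * 2 ^ (4 * s)
      ≤ (2 ^ (4 * s) * (((k : ℝ) ^ N) ^ N * (1 / 2 : ℝ) ^ (8 * s))) * 2 ^ (4 * s) := by
        apply mul_le_mul_of_nonneg_right _ (by positivity)
        exact hcount.trans (mul_le_mul_of_nonneg_left hfinal (by positivity))
    _ = ((k : ℝ) ^ N) ^ N * ((2 : ℝ) ^ (4 * s) * 2 ^ (4 * s) * (1 / 2 : ℝ) ^ (8 * s)) := by ring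
    _ = ((k : ℝ) ^ N) ^ N := by
        rw [← pow_add, show 4 * s + 4 * s = 8 * s by ring, ← mul_pow]
        norm_num

end Vale.Agent.P308
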