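import Mathlib

namespace Vale.Agent.P308

open Finset

variable {V : Type*} [Fintype V] [DecidableEq V]

/-- Expander mixing lemma (squared, one-sided sharp form). -/
theorem mixing_sq (G : SimpleGraph V) [DecidableRel G.Adj] (d : ℕ) (lam : ℝ)
    (hreg : G.IsRegularOfDegree d)
    (hspec : ∀ f : V → ℝ, ∑ v, f v = 0 →
      ∑ v, ((G.adjMatrix ℝ).mulVec f v)^2 ≤ lam^2 * ∑ v, (f v)^2)
    (S T : Finset V) :
    (((G.interedges S T).card : ℝ) - d * S.card * T.card / Fintype.card V)^2 ≤
      lam^2 * S.card * (T.card - (T.card:ℝ)^2 / Fintype.card V) := by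
  rcases isEmpty_or_nonempty V with hV | hV
  · have hS : S = ∅ := Finset.eq_empty_of_isEmpty S
    subst hS
    simp [SimpleGraph.interedges, Rel.interedges]
  have hN : (0 : ℝ) < Fintype.card V := by exact_mod_cast Fintype.card_pos
  set N : ℝ := (Fintype.card V : ℝ) with hNdef
  set t : ℝ := (T.card : ℝ) with ht
  set s : ℝ := (S.card : ℝ) with hs
  set c : ℝ := t / N with hc
  set ind : V → ℝ := fun v => if v ∈ T then 1 else 0 with hind
  set g : V → ℝ := fun v => ind v - c with hg
  have hsumind : ∑ v, ind v = t := by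
    simp [hind, ht]
  have hcN : N * c = t := by
    rw [hc]; field_simp
  have hsumg : ∑ v, g v = 0 := by
    simp only [hg, Finset.sum_sub_distrib, hsumind, Finset.sum_const, Finset.card_univ,
      nsmul_eq_mul]
    linarith
  have hsumg2 : ∑ v, (g v) ^ 2 = t - t ^ 2 / N := by
    have h1 : ∀ v, (g v) ^ 2 = ind v - 2 * c * ind v + c ^ 2 := by
      intro v
      simp only [hg, hind]
      split_ifs <;> ring
    simp only [h1, Finset.sum_add_distrib, Finset.sum_sub_distrib, ← Finset.mul_sum, hsumind,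
      Finset.sum_const, Finset.card_univ, nsmul_eq_mul]
    rw [hc]
    field_simp
    ring
  have hAg : ∀ x, (G.adjMatrix ℝ).mulVec g x
      = (∑ y ∈ T, if G.Adj x y then (1 : ℝ) else 0) - d * c := by
    intro x
    rw [SimpleGraph.adjMatrix_mulVec_apply]
    simp only [hg, Finset.sum_sub_distrib, Finset.sum_const, nsmul_eq_mul,
      SimpleGraph.card_neighborFinset_eq_degree, hreg.degree_eq x]
    congr 1
    simp only [hind]
    rw [← Finset.sum_filter, ← Finset.sum_filter]
    simp only [Finset.sum_const, nsmul_eq_mul, mul_one]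
    congr 2
    ext y
    simp [and_comm]
  have hedge : ((G.interedges S T).card : ℝ)
      = ∑ x ∈ S, ∑ y ∈ T, if G.Adj x y then (1 : ℝ) else 0 := by
    rw [SimpleGraph.interedges, Rel.interedges, Finset.card_filter, Nat.cast_sum,
      Finset.sum_product]
    refine Finset.sum_congr rfl fun x _ => Finset.sum_congr rfl fun y _ => ?_
    split_ifs <;> simp
  have hX : ((G.interedges S T).card : ℝ) - d * s * t / N
      = ∑ x ∈ S, (G.adjMatrix ℝ).mulVec g x := by
    simp only [hAg, Finset.sum_sub_distrib, Finset.sum_const, nsmul_eq_mul, ← hedge]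
    rw [hc]
    ring
  rw [hX]
  calc (∑ x ∈ S, (G.adjMatrix ℝ).mulVec g x) ^ 2
      ≤ s * ∑ x ∈ S, ((G.adjMatrix ℝ).mulVec g x) ^ 2 := sq_sum_le_card_mul_sum_sq
    _ ≤ s * ∑ x, ((G.adjMatrix ℝ).mulVec g x) ^ 2 := by
        refine mul_le_mul_of_nonneg_left ?_ (Nat.cast_nonneg _)
        exact Finset.sum_le_sum_of_subset_of_nonneg (Finset.subset_univ S)
          fun x _ _ => sq_nonneg _
    _ ≤ s * (lam ^ 2 * ∑ v, (g v) ^ 2) :=
        mul_le_mul_of_nonneg_left (hspec g hsumg) (Nat.cast_nonneg _)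
    _ = lam ^ 2 * s * (t - t ^ 2 / N) := by rw [hsumg2]; ring

/-- Expander mixing lemma. -/
theorem mixing (G : SimpleGraph V) [DecidableRel G.Adj] (d : ℕ) (lam : ℝ) (hlam : 0 ≤ lam)
    (hreg : G.IsRegularOfDegree d)
    (hspec : ∀ f : V → ℝ, ∑ v, f v = 0 →
      ∑ v, ((G.adjMatrix ℝ).mulVec f v)^2 ≤ lam^2 * ∑ v, (f v)^2)
    (S T : Finset V) :
    |((G.interedges S T).card : ℝ) - d * S.card * T.card / Fintype.card V| ≤
      lam * Real.sqrt (S.card * T.card) := by
  have h := mixing_sq G d lam hreg hspec S T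
  have hst : (0 : ℝ) ≤ (S.card : ℝ) * T.card := by positivity
  refine abs_le_of_sq_le_sq ?_ (mul_nonneg hlam (Real.sqrt_nonneg _))
  rw [mul_pow, Real.sq_sqrt hst]
  refine h.trans ?_
  have h1 : (T.card : ℝ) - (T.card : ℝ) ^ 2 / Fintype.card V ≤ T.card := by
    have : (0 : ℝ) ≤ (T.card : ℝ) ^ 2 / Fintype.card V := by positivity
    linarith
  calc lam ^ 2 * S.card * (T.card - (T.card : ℝ) ^ 2 / Fintype.card V)
      ≤ lam ^ 2 * S.card * T.card := mul_le_mul_of_nonneg_left h1 (by positivity)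
    _ = lam ^ 2 * (S.card * T.card) := by ring

end Vale.Agent.P308
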