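import Vale.Agent.P308.Mixing
import Vale.Agent.P308.Expander

namespace Vale.Agent.P308

open Finset

variable {V : Type*} [Fintype V] [DecidableEq V]

omit [DecidableEq V] in
/-- the edges between a vertex and its neighbourhood -/
theorem card_interedges_singleton_nbr (G : SimpleGraph V) [DecidableRel G.Adj] (x : V) :
    (G.interedges {x} (G.neighborFinset x)).card = G.degree x := by
  rw [← G.card_neighborFinset_eq_degree x]
  symm
  refine Finset.card_bij (fun y _ => (x, y)) ?_ ?_ ?_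
  · intro y hy
    rw [SimpleGraph.mem_interedges_iff]
    exact ⟨Finset.mem_singleton_self x, hy, (G.mem_neighborFinset x y).1 hy⟩
  · intro y _ z _ h
    exact (Prod.mk.inj h).2
  · rintro ⟨a, b⟩ h
    rw [SimpleGraph.mem_interedges_iff] at h
    obtain ⟨h1, h2, -⟩ := h
    have h1' : a = x := Finset.mem_singleton.1 h1
    exact ⟨b, h2, by rw [h1']⟩

/-- a regular graph of positive degree with second singular value at most `d/256` has `d ≥ 256` -/
theorem spectral_degree [Nonempty V] (G : SimpleGraph V) [DecidableRel G.Adj] (d : ℕ) (hd : 0 < d)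
    (hreg : G.IsRegularOfDegree d)
    (hspec : ∀ f : V → ℝ, ∑ v, f v = 0 →
      ∑ v, ((G.adjMatrix ℝ).mulVec f v)^2 ≤ ((d:ℝ)/256)^2 * ∑ v, (f v)^2) :
    256 ≤ d ∧ d < Fintype.card V := by
  obtain ⟨x⟩ := ‹Nonempty V›
  have hdN : d < Fintype.card V := by
    have := G.degree_lt_card_verts x
    rwa [hreg x] at this
  refine ⟨?_, hdN⟩
  have hmix := mixing_sq G d ((d:ℝ)/256) hreg hspec {x} (G.neighborFinset x)
  rw [card_interedges_singleton_nbr, G.card_neighborFinset_eq_degree, hreg x,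
    Finset.card_singleton] at hmix
  set N : ℝ := (Fintype.card V : ℝ) with hN
  have hdN' : (d:ℝ) + 1 ≤ N := by
    rw [hN]; exact_mod_cast hdN
  have hd' : (0:ℝ) < d := by exact_mod_cast hd
  have hNpos : 0 < N := by linarith
  set X : ℝ := (d:ℝ) - (d:ℝ)^2 / N with hX
  have hXeq : X = d * (N - d) / N := by
    rw [hX]; field_simp
  have hXpos : 0 < X := by
    rw [hXeq]
    apply div_pos _ hNpos
    apply mul_pos hd'
    linarith
  have h1 : X^2 ≤ ((d:ℝ)/256)^2 * X := by
    have e1 : (d:ℝ) - d * ((1:ℕ):ℝ) * d / N = X := by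
      rw [hX]; push_cast; ring
    have e2 : ((d:ℝ)/256)^2 * ((1:ℕ):ℝ) * ((d:ℝ) - (d:ℝ)^2 / N) = ((d:ℝ)/256)^2 * X := by
      rw [hX]; push_cast; ring
    rw [e1, e2] at hmix
    exact hmix
  have h2 : X ≤ ((d:ℝ)/256)^2 := by
    have : X * X ≤ ((d:ℝ)/256)^2 * X := by rw [← sq]; exact h1
    exact le_of_mul_le_mul_right this hXpos
  have h3 : 65536 * (N - d) ≤ d * N := by
    rw [hXeq, div_le_iff₀ hNpos] at h2
    have h4 : (d:ℝ) * (65536 * (N - d)) ≤ d * (d * N) := by nlinarith
    exact le_of_mul_le_mul_left h4 hd'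
  by_contra hlt
  have hlt' : d ≤ 255 := by omega
  have hlt'' : (d:ℝ) ≤ 255 := by exact_mod_cast hlt'
  have h5 : (d:ℝ) * N ≤ 255 * N := mul_le_mul_of_nonneg_right hlt'' hNpos.le
  linarith

theorem spectral_grow (G : SimpleGraph V) [DecidableRel G.Adj] (d : ℕ)
    (hreg : G.IsRegularOfDegree d)
    (hspec : ∀ f : V → ℝ, ∑ v, f v = 0 →
      ∑ v, ((G.adjMatrix ℝ).mulVec f v)^2 ≤ ((d:ℝ)/256)^2 * ∑ v, (f v)^2)
    (L Z : Finset V) (hL : 64 * L.card ≤ Fintype.card V) (hZ : Z.card ≤ 28 * L.card) :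
    4 * (G.interedges L Z).card ≤ 3 * d * L.card := by
  rcases Nat.eq_zero_or_pos L.card with h0 | hpos
  · have : L = ∅ := Finset.card_eq_zero.1 h0
    subst this
    simp
  have hmix := mixing G d ((d:ℝ)/256) (by positivity) hreg hspec L Z
  set N : ℝ := (Fintype.card V : ℝ) with hN
  set s : ℝ := (L.card : ℝ) with hs
  set z : ℝ := (Z.card : ℝ) with hz
  set e : ℝ := ((G.interedges L Z).card : ℝ) with he
  have hspos : 0 < s := by rw [hs]; exact_mod_cast hpos
  have hLr : 64 * s ≤ N := by rw [hs, hN]; exact_mod_cast hL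
  have hZr : z ≤ 28 * s := by rw [hs, hz]; exact_mod_cast hZ
  have hz0 : 0 ≤ z := by rw [hz]; positivity
  have hd0 : (0:ℝ) ≤ d := by positivity
  have hNpos : 0 < N := by linarith
  have hsqrt : Real.sqrt (s * z) ≤ 6 * s := by
    rw [show (6 * s) = Real.sqrt ((6 * s)^2) from (Real.sqrt_sq (by positivity)).symm]
    apply Real.sqrt_le_sqrt
    nlinarith
  have h1 : e ≤ d * s * z / N + (d:ℝ)/256 * Real.sqrt (s * z) := by
    have := (abs_le.1 hmix).2
    linarith
  have h2 : d * s * z / N ≤ d * s * (28 / 64) := by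
    rw [div_le_iff₀ hNpos]
    have h3 : z ≤ 28 / 64 * N := by linarith
    have h4 : (0:ℝ) ≤ d * s := by positivity
    calc d * s * z ≤ d * s * (28 / 64 * N) := mul_le_mul_of_nonneg_left h3 h4
      _ = d * s * (28 / 64) * N := by ring
  have h5 : (d:ℝ)/256 * Real.sqrt (s * z) ≤ (d:ℝ)/256 * (6 * s) :=
    mul_le_mul_of_nonneg_left hsqrt (by positivity)
  have h6 : 4 * e ≤ 3 * d * s := by
    have h7 : (0:ℝ) ≤ d * s := by positivity
    nlinarith
  have h8 : ((4 * (G.interedges L Z).card : ℕ) : ℝ) ≤ ((3 * d * L.card : ℕ) : ℝ) := by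
    push_cast
    exact h6
  exact_mod_cast h8

theorem spectral_join (G : SimpleGraph V) [DecidableRel G.Adj] (d : ℕ)
    (hreg : G.IsRegularOfDegree d)
    (hspec : ∀ f : V → ℝ, ∑ v, f v = 0 →
      ∑ v, ((G.adjMatrix ℝ).mulVec f v)^2 ≤ ((d:ℝ)/256)^2 * ∑ v, (f v)^2)
    (hN : 256 ≤ Fintype.card V)
    (A B : Finset V) (hA : Fintype.card V ≤ 128 * A.card) (hB : Fintype.card V ≤ 128 * B.card) :
    2 * (d / 256) ≤ (G.interedges A B).card := by
  have hmix := mixing G d ((d:ℝ)/256) (by positivity) hreg hspec A B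
  set N : ℝ := (Fintype.card V : ℝ) with hNdef
  set a : ℝ := (A.card : ℝ) with ha
  set b : ℝ := (B.card : ℝ) with hb
  set e : ℝ := ((G.interedges A B).card : ℝ) with he
  have hNr : 256 ≤ N := by rw [hNdef]; exact_mod_cast hN
  have hAr : N ≤ 128 * a := by rw [hNdef, ha]; exact_mod_cast hA
  have hBr : N ≤ 128 * b := by rw [hNdef, hb]; exact_mod_cast hB
  have hNpos : 0 < N := by linarith
  have ha0 : 0 < a := by linarith
  have hb0 : 0 < b := by linarith
  have hd0 : (0:ℝ) ≤ d := by positivity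
  set r : ℝ := Real.sqrt (a * b) with hr
  have hr2 : r * r = a * b := Real.mul_self_sqrt (by positivity)
  have hrN : N / 128 ≤ r := by
    rw [hr]
    apply Real.le_sqrt_of_sq_le
    have h1 : N / 128 ≤ a := by linarith
    have h2 : N / 128 ≤ b := by linarith
    have h3 : 0 ≤ N / 128 := by positivity
    calc (N / 128)^2 = (N / 128) * (N / 128) := by ring
      _ ≤ a * b := mul_le_mul h1 h2 h3 ha0.le
  have hr0 : 0 < r := by
    have : 0 < N / 128 := by positivity
    linarith
  have h1 : d * a * b / N - (d:ℝ)/256 * r ≤ e := by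
    have := (abs_le.1 hmix).1
    linarith
  have h2 : d * r / 128 ≤ d * a * b / N := by
    rw [le_div_iff₀ hNpos]
    have h3 : r * N ≤ 128 * (r * r) := by nlinarith
    calc d * r / 128 * N = d * (r * N) / 128 := by ring
      _ ≤ d * (128 * (r * r)) / 128 := by
        apply div_le_div_of_nonneg_right _ (by norm_num)
        exact mul_le_mul_of_nonneg_left h3 hd0
      _ = d * a * b := by rw [hr2]; ring
  have h4 : (d:ℝ) / 128 ≤ e := by
    have h5 : (2:ℝ) ≤ r := by linarith
    have h6 : (d:ℝ) * 2 ≤ d * r := mul_le_mul_of_nonneg_left h5 hd0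
    linarith
  have h7 : ((d / 256 : ℕ) : ℝ) ≤ (d:ℝ) / 256 := by
    have := Nat.cast_div_le (α := ℝ) (m := d) (n := 256)
    simpa using this
  have h8 : ((2 * (d / 256) : ℕ) : ℝ) ≤ ((G.interedges A B).card : ℝ) := by
    push_cast
    linarith
  exact_mod_cast h8

/-- Regular spectral expanders: the number of near-perfect matchings is at most `|V|^10` times
the number of perfect matchings. -/
theorem spectral_ratio (G : SimpleGraph V) [DecidableRel G.Adj] (d : ℕ) (hd : 0 < d)
    (hreg : G.IsRegularOfDegree d)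
    (hspec : ∀ f : V → ℝ, ∑ v, f v = 0 →
      ∑ v, ((G.adjMatrix ℝ).mulVec f v)^2 ≤ ((d:ℝ)/256)^2 * ∑ v, (f v)^2) :
    Set.ncard {M : G.Subgraph | M.IsMatching ∧ (M.verts)ᶜ.ncard = 2} ≤
      (Fintype.card V)^10 * Set.ncard {M : G.Subgraph | M.IsPerfectMatching} := by
  rcases isEmpty_or_nonempty V with hV | hV
  · have : {M : G.Subgraph | M.IsMatching ∧ (M.verts)ᶜ.ncard = 2} = ∅ := by
      ext M
      simp only [Set.mem_ofPred_eq, Set.mem_empty_iff_false, iff_false, not_and]
      intro _ h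
      have h0 : (M.verts)ᶜ = ∅ := Set.eq_empty_of_isEmpty _
      rw [h0, Set.ncard_empty] at h
      omega
    rw [this, Set.ncard_empty]
    exact Nat.zero_le _
  obtain ⟨hd256, hdN⟩ := spectral_degree G d hd hreg hspec
  set N := Fintype.card V with hN
  set k := d / 256 with hk
  have hk1 : 1 ≤ k := by rw [hk]; omega
  have hkd : 256 * k ≤ d := by rw [hk]; omega
  have hdk : d < 512 * k := by rw [hk]; omega
  have hex : ∃ T : ℕ, N ≤ 64 * 2^T := ⟨N, by
    have := (Nat.lt_two_pow_self (n := N)).le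
    omega⟩
  classical
  set T := Nat.find hex with hT
  have hT1 : N ≤ 64 * 2^T := Nat.find_spec hex
  have hTpos : 1 ≤ T := by
    by_contra h
    have h0 : T = 0 := by omega
    rw [h0] at hT1
    omega
  have hT2 : 64 * 2^(T-1) < N := by
    have := Nat.find_min hex (m := T - 1) (by omega)
    omega
  have hpow : 2^T = 2 * 2^(T-1) := by
    obtain ⟨t, ht⟩ : ∃ t, T = t + 1 := ⟨T - 1, by omega⟩
    rw [ht, Nat.add_sub_cancel, pow_succ]; ring
  have hmain := expander_ratio G k d d T (by omega) (by omega)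
    (fun x => (hreg x).ge) (fun x => (hreg x).le)
    (fun L Z h1 h2 => spectral_grow G d hreg hspec L Z (by rw [← hN]; omega) h2)
    (fun A B h1 h2 => spectral_join G d hreg hspec (by rw [← hN]; omega) A B
      (by rw [← hN]; omega) (by rw [← hN]; omega))
  set NPM := Set.ncard {M : G.Subgraph | M.IsMatching ∧ (M.verts)ᶜ.ncard = 2} with hNPM
  set PM := Set.ncard {M : G.Subgraph | M.IsPerfectMatching} with hPM
  have hdT : d^T ≤ 512^T * k^T := by
    rw [← mul_pow]
    exact Nat.pow_le_pow_left hdk.le T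
  have hkT : 0 < k^T := by positivity
  have h1 : NPM * k^(T+1) ≤ (2 * (N * 512^T * PM)) * k^T := by
    calc NPM * k^(T+1) ≤ 2 * (N * d^T * PM) := hmain
      _ ≤ 2 * (N * (512^T * k^T) * PM) := by gcongr
      _ = (2 * (N * 512^T * PM)) * k^T := by ring
  have h2 : NPM * k ≤ 2 * (N * 512^T * PM) := by
    have : (NPM * k) * k^T ≤ (2 * (N * 512^T * PM)) * k^T := by
      calc (NPM * k) * k^T = NPM * k^(T+1) := by ring
        _ ≤ _ := h1
    exact Nat.le_of_mul_le_mul_right this hkT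
  have h3 : NPM ≤ 2 * (N * 512^T * PM) :=
    le_trans (Nat.le_mul_of_pos_right NPM hk1) h2
  have h4 : (512:ℕ)^T = (2^T)^9 := by
    rw [← pow_mul, mul_comm, pow_mul]; norm_num
  have h5 : 2 * 2^T ≤ N := by omega
  have h6 : 2^T ≤ N := by omega
  have h7 : 2 * (2^T)^9 ≤ N^9 := by
    calc 2 * (2^T)^9 = (2 * 2^T) * (2^T)^8 := by ring
      _ ≤ N * N^8 := Nat.mul_le_mul h5 (Nat.pow_le_pow_left h6 8)
      _ = N^9 := by ring
  calc NPM ≤ 2 * (N * 512^T * PM) := h3
    _ = N * (2 * (2^T)^9) * PM := by rw [h4]; ring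
    _ ≤ N * N^9 * PM := by gcongr
    _ = N^10 * PM := by ring

end Vale.Agent.P308
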